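import Vale.Agent.P280.H347.Bad
import Vale.Agent.P280.H83.Api3

/-! P280, Plan N, package A12: local factorisation modulo fields. -/

open DirectSum Vale.Agent.P280.T Vale.Agent.P280.H127 Vale.Agent.P280.N
open scoped Matrix

namespace Vale.Agent.P280.H347

variable {r : ℕ} {R : Type} [CommRing R] [IsDomain R] [Algebra ℂ R]
variable {𝒜 : ℕ × (Fin r → ℤ) → Submodule ℂ R} [GradedAlgebra 𝒜]

/-- The coefficients of a homogeneous combination of independent homogeneous fields are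
homogeneous. -/
theorem hk_coef (hX : IsTorusManifold 𝒜) {y : FP 𝒜} {ι : Type} [Fintype ι] {w : ι → VF R}
    {χ : ι → Fin r → ℤ} (hw : Ind y w χ) {lam : Fin r → ℤ} {x : ι → FractionRing R}
    (hv : HV 𝒜 lam (∑ i, x i • w i)) (i : ι) : HK 𝒜 0 (χ i - lam) (x i) := by
  classical
  obtain ⟨d, h, c, hh, hc, hA⟩ := exists_test hX (fun i => (hw.glob i).rgV) hw.hv hw.inj hw.ne
  set A : Matrix ι ι (FractionRing R) := Matrix.of fun j i => w i (iK (h j)) with hAdef
  have hA' : ∀ i j, Val y.q (A i j) (Matrix.diagonal c i j) := hA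
  have hc0 : (Matrix.diagonal c).det ≠ 0 := by
    rw [Matrix.det_diagonal]
    exact Finset.prod_ne_zero_iff.2 fun i _ => hc i
  have hdet : A.det ≠ 0 := (Val.det hA').ne_zero hc0
  set ρ : ι → FractionRing R := fun j => (∑ i, x i • w i : VF R) (iK (h j)) with hρ
  have hAg : A *ᵥ x = ρ := by
    funext j
    change _ = (∑ i, x i • w i : VF R) (iK (h j))
    rw [sum_smul_apply, Matrix.mulVec, dotProduct]
    exact Finset.sum_congr rfl fun i _ => by rw [mul_comm]; rfl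
  have hAH : ∀ j i, HK 𝒜 (d j) ((d j • y.ν + χ j) - χ i) (A j i) := fun j i =>
    hw.hv i _ _ _ (hh j)
  have h1 := det_mul_eq hAg i
  have h2 : HK 𝒜 (∑ j, (d j : ℤ)) (∑ j, (d j • y.ν + χ j) -
      ∑ j, Function.update χ i lam j) (A.updateCol i ρ).det := by
    refine HK.det fun j k => ?_
    by_cases hk : k = i
    · subst hk
      rw [Matrix.updateCol_self, Function.update_self]
      exact hv _ _ _ (hh j)
    · rw [Matrix.updateCol_ne hk, Function.update_of_ne hk]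
      exact hAH j k
  have h3 := (HK.det hAH).inv hdet
  have h4 : x i = A.det⁻¹ * (A.updateCol i ρ).det := by
    rw [← h1, ← mul_assoc, inv_mul_cancel₀ hdet, one_mul]
  rw [h4]
  refine (h3.mul h2).cast (by ring) ?_
  rw [Finset.sum_update_of_mem (Finset.mem_univ i), ← Finset.add_sum_erase _ χ (Finset.mem_univ i)]
  have h5 : Finset.univ \ {i} = Finset.univ.erase i := by
    rw [Finset.sdiff_singleton_eq_erase]
  rw [h5]
  abel

omit [GradedAlgebra 𝒜] in
/-- Reindexing independent fields. -/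
theorem ind_reindex {y : FP 𝒜} {ι κ : Type} {w : ι → VF R} {χ : ι → Fin r → ℤ}
    (hw : Ind y w χ) (e : κ ≃ ι) : Ind y (fun k => w (e k)) fun k => χ (e k) where
  glob _ := hw.glob _
  hv _ := hw.hv _
  inj := hw.inj.comp e.injective
  pi _ := hw.pi _
  ne _ := hw.ne _

/-- Local data at a point where fields are independent. -/
theorem exists_data (H : Hyp 𝒜) {y : FP 𝒜} {k : ℕ} {w : Fin k → Derivation ℂ R R}
    {χ : Fin k → Fin r → ℤ} (hI : Ind y (fun i => toVF (w i)) χ) :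
    ∃ (n : ℕ) (u : Fin n → R) (wt : Fin n → Fin r → ℤ) (ι : Fin k → Fin n),
      Gens (coarse 𝒜 (rl (AddMonoidHom.id (Fin r → ℤ)) y.ν)) y.q u wt ∧
      (n : ℕ∞) = (mx y.q).height ∧ (∀ i, wt (ι i) = χ i) ∧
      y.q (wm w fun j => u (ι j)).det ≠ 0 ∧ (∀ i, wt i ≠ 0 → y.Pi (wt i)) ∧
      (∀ i, (∀ j, ι j ≠ i) → wt i ≠ 0 → ∀ j, wt i ≠ χ j) ∧
      ∀ i j, wt i ≠ 0 → wt i = wt j → i = j := by
  obtain ⟨n, u, wt, G, hn⟩ := exists_params_T H.hX
    (f := rl (AddMonoidHom.id (Fin r → ℤ)) y.ν) y.nv (fix_of_isFixed y.fix)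
  obtain ⟨ι, hι, hdet⟩ := ind_params H.hX hI G hn
  refine ⟨n, u, wt, ι, G, hn, hι, hdet,
    fun i hi => tangentWeight_of_wt H.hX y.fix G hn hi, fun i hi h0 j hj => ?_,
    fun i j hi hij => wt_inj H y G hn hi hij⟩
  apply hi j
  exact wt_inj H y G hn (by rw [hι, ← hj]; exact h0) (by rw [hι, hj])

/-- **LF4**, the `K`-span. -/
theorem mem_span_of_top (H : Hyp 𝒜) (y : FP 𝒜) {k : ℕ} {w : Fin k → Derivation ℂ R R}
    {χ : Fin k → Fin r → ℤ} (hw : Ind y (fun i => toVF (w i)) χ) (l : (Fin r → ℤ) →+ ℤ)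
    (hl : Pos l y) {om : Fin r → ℤ} (htop : ∀ ψ, y.Pi ψ → (∀ i, ψ ≠ χ i) → l ψ < l om)
    (hpos : 0 < l om) {v : VF R} (hv : HV 𝒜 om v) (hr : RgV y.q v) :
    ∃ x : Fin k → FractionRing R, v = ∑ i, x i • toVF (w i) := by
  classical
  have hX := H.hX
  have := noeth hX
  obtain ⟨n, u, wt, ι, G, hn, hι, hdet, hPi, hout, -⟩ := exists_data H hw
  obtain ⟨N, γ, g, D, hg, hg0, hD, hDh⟩ := H900.exists_den hX hv
  have hF : Fix (coarse 𝒜 (rl (AddMonoidHom.id (Fin r → ℤ)) y.ν)) y.q := fix_of_isFixed y.fix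
  set h : Fin k → R := fun j => u (ι j) with hh
  have hdet0 : (wm w h).det ≠ 0 := by
    intro h0
    rw [h0, map_zero] at hdet
    exact hdet rfl
  -- homogeneity of the fields in the grading at `y`
  have hwc : ∀ i κ, ∀ x ∈ coarse 𝒜 (rl (AddMonoidHom.id (Fin r → ℤ)) y.ν) κ,
      w i x ∈ coarse 𝒜 (rl (AddMonoidHom.id (Fin r → ℤ)) y.ν) (κ - χ i) := by
    intro i κ x hx
    refine coarse_induction (P := fun x => w i x ∈
      coarse 𝒜 (rl (AddMonoidHom.id (Fin r → ℤ)) y.ν) (κ - χ i)) ?_ ?_ ?_ hx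
    · rw [map_zero]
      exact Submodule.zero_mem _
    · intro a b ha hb
      rw [map_add]
      exact Submodule.add_mem _ ha hb
    · rintro ⟨d, m⟩ rfl z hz
      refine mem_coarse ((hw.hv i).isHField d m z hz) ?_
      rw [rl_apply, rl_apply, map_sub]
      simp only [AddMonoidHom.id_apply]
      abel
  have hDc : ∀ κ, ∀ x ∈ coarse 𝒜 (rl (AddMonoidHom.id (Fin r → ℤ)) y.ν) κ,
      D x ∈ coarse 𝒜 (rl (AddMonoidHom.id (Fin r → ℤ)) y.ν) (κ + ((γ - N • y.ν) - om)) := by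
    intro κ x hx
    refine coarse_induction (P := fun x => D x ∈
      coarse 𝒜 (rl (AddMonoidHom.id (Fin r → ℤ)) y.ν) (κ + ((γ - N • y.ν) - om))) ?_ ?_ ?_ hx
    · rw [map_zero]
      exact Submodule.zero_mem _
    · intro a b ha hb
      rw [map_add]
      exact Submodule.add_mem _ ha hb
    · rintro ⟨d, m⟩ rfl z hz
      refine mem_coarse (hDh d m z hz) ?_
      rw [rl_apply, rl_apply]
      simp only [AddMonoidHom.id_apply, add_smul]
      abel
  have hA : ∀ i j, wm w h i j ∈ coarse 𝒜 (rl (AddMonoidHom.id (Fin r → ℤ)) y.ν)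
      (wt (ι j) - χ i) := fun i j => hwc i _ _ (G.hom (ι j))
  set ε : Fin r → ℤ := ∑ j, wt (ι j) - ∑ i, χ i with hε
  have hgd : g * (wm w h).det ∈ coarse 𝒜 (rl (AddMonoidHom.id (Fin r → ℤ)) y.ν)
      ((γ - N • y.ν) + ε) :=
    SetLike.mul_mem_graded (mem_coarse hg rfl) (det_mem hA)
  have hgd0 : g * (wm w h).det ≠ 0 := mul_ne_zero hg0 hdet0
  -- a homogeneous denominator
  have hrm : RM y.q (Set.range fun i => toVF (w i)) v := hr.rm
  rw [rm_iff_regMod hX hg0 hD, regMod_iff hg0 hdet] at hrm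
  obtain ⟨s1, hs1, hs1'⟩ := hrm
  have hnf : ∀ κ, ∀ x ∈ coarse 𝒜 (rl (AddMonoidHom.id (Fin r → ℤ)) y.ν) κ,
      nf w h D x ∈ coarse 𝒜 (rl (AddMonoidHom.id (Fin r → ℤ)) y.ν)
        (κ + ((γ - N • y.ν) - om) + ε) :=
    fun κ x hx => nf_mem hwc (fun j => G.hom (ι j)) hDc hx
  obtain ⟨s, hs0, hsq, hs⟩ : ∃ s ∈ coarse 𝒜 (rl (AddMonoidHom.id (Fin r → ℤ)) y.ν) 0,
      y.q s ≠ 0 ∧ s ∈ cond (g * (wm w h).det) (nf w h D) := by
    refine ⟨cp (coarse 𝒜 (rl (AddMonoidHom.id (Fin r → ℤ)) y.ν)) 0 s1, cp_mem _ _ _,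
      by rw [hF.q_cp]; exact hs1, ?_⟩
    exact cond_homogeneous (𝒜 := coarse 𝒜 (rl (AddMonoidHom.id (Fin r → ℤ)) y.ν)) hgd
      (nf w h D).toLinearMap (fun κ x hx => ⟨_, hnf κ x hx⟩) hs1' 0
  have hs00 : s ≠ 0 := by
    rintro rfl
    rw [map_zero] at hsq
    exact hsq rfl
  -- the derivation `E`
  choose E0 hE0 using hs
  let E : R →ₗ[ℂ] R :=
    { toFun := E0
      map_add' := by
        intro x y
        apply mul_left_cancel₀ hgd0
        rw [← hE0, mul_add, ← hE0, ← hE0, map_add, mul_add]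
      map_smul' := by
        intro c x
        apply mul_left_cancel₀ hgd0
        rw [← hE0, RingHom.id_apply, mul_smul_comm, ← hE0, (nf w h D).map_smul, mul_smul_comm] }
  have hE : ∀ x, s * nf w h D x = g * (wm w h).det * E x := hE0
  have hEmul : ∀ a b, E (a * b) = a * E b + b * E a := by
    intro x y
    apply mul_left_cancel₀ hgd0
    rw [← hE, Derivation.leibniz]
    simp only [smul_eq_mul]
    linear_combination x * hE y + y * hE x
  have hEdeg : ∀ κ, ∀ x ∈ coarse 𝒜 (rl (AddMonoidHom.id (Fin r → ℤ)) y.ν) κ,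
      E x ∈ coarse 𝒜 (rl (AddMonoidHom.id (Fin r → ℤ)) y.ν) (κ - om) := by
    intro κ x hx
    apply div_mem hgd hgd0
    rw [← hE]
    have h2 := SetLike.mul_mem_graded hs0 (hnf κ x hx)
    have h3 : 0 + (κ + ((γ - N • y.ν) - om) + ε) = (γ - N • y.ν) + ε + (κ - om) := by abel
    rwa [h3] at h2
  have hsrc : ∀ κ : Fin r → ℤ, l κ < 0 →
      coarse 𝒜 (rl (AddMonoidHom.id (Fin r → ℤ)) y.ν) κ = ⊥ := by
    intro κ hκ
    refine source hF G (C := {κ | l κ < 0}) (by simp) ?_ hκ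
    intro κ hκ i
    have h1 : l κ < 0 := hκ
    show l (κ - wt i) < 0
    rw [map_sub]
    by_cases h0 : wt i = 0
    · rw [h0, map_zero, sub_zero]
      exact h1
    · have := hl _ (hPi i h0)
      linarith
  have hEu : ∀ i, E (u i) = 0 := by
    intro i
    by_cases hi : ∃ j, ι j = i
    · obtain ⟨j, rfl⟩ := hi
      have h1 : g * (wm w h).det * E (u (ι j)) = 0 := by
        rw [← hE, nf_eq_zero w h D j, mul_zero]
      exact (mul_eq_zero.1 h1).resolve_left hgd0
    · push Not at hi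
      have h1 := hEdeg _ _ (G.hom i)
      rw [hsrc (wt i - om) ?_] at h1
      · exact (Submodule.mem_bot ℂ).1 h1
      · rw [map_sub]
        by_cases h0 : wt i = 0
        · rw [h0, map_zero]
          linarith
        · have := htop _ (hPi i h0) (hout i hi h0)
          linarith
  obtain ⟨s', _, hs'1, hs'⟩ := G.gen
  obtain ⟨r', hr1, hr'⟩ := nakayama_step E hEmul hs'1 hs' G.zero (t := 1) (u0 := 0)
    (map_one _) (fun i => by rw [hEu i, mul_zero])
  have hE0' : ∀ x, E x = 0 := by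
    intro x
    have h1 := zero_dvd_iff.1 (hr' x)
    refine (mul_eq_zero.1 h1).resolve_left ?_
    rintro rfl
    rw [map_zero] at hr1
    exact zero_ne_one hr1
  have hnf0 : ∀ x, nf w h D x = 0 := by
    intro x
    have h1 := hE x
    rw [hE0', mul_zero] at h1
    exact (mul_eq_zero.1 h1).resolve_left hs00
  -- conclusion
  have hgK := iK_ne_zero hg0
  have hdK := iK_ne_zero hdet0
  refine ⟨fun i => iK (nfc w h D i) / (iK (wm w h).det * iK g), vf_ext fun x => ?_⟩
  rw [sum_smul_apply]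
  have h1 := hnf0 x
  rw [nf_apply, sub_eq_zero] at h1
  have h2 := congrArg iK h1
  rw [iK_mul, hD, iK_sum] at h2
  have h3 : (iK (wm w h).det * iK g) * ∑ i, iK (nfc w h D i) / (iK (wm w h).det * iK g) *
      toVF (w i) (iK x) = ∑ i, iK (nfc w h D i * w i x) := by
    rw [Finset.mul_sum]
    refine Finset.sum_congr rfl fun i _ => ?_
    rw [toVF_iK, iK_mul, ← mul_assoc, mul_div_cancel₀ _ (mul_ne_zero hdK hgK)]
  apply mul_left_cancel₀ (mul_ne_zero hdK hgK)
  rw [h3, ← h2, mul_assoc]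

/-- **LF4.** -/
theorem lf4_core (H : Hyp 𝒜) (y : FP 𝒜) {ι : Type} [Fintype ι] {w : ι → VF R}
    {χ : ι → Fin r → ℤ} (hw : Ind y w χ) (l : (Fin r → ℤ) →+ ℤ) (hl : Pos l y) {om : Fin r → ℤ}
    (htop : ∀ ψ, y.Pi ψ → (∀ i, ψ ≠ χ i) → l ψ < l om) (hpos : 0 < l om) {v : VF R}
    (hv : HV 𝒜 om v) (hr : RgV y.q v) : ∃ x : ι → FractionRing R,
      (∀ i, Rg y.q (x i) ∧ HK 𝒜 0 (χ i - om) (x i)) ∧ v = ∑ i, x i • w i := by
  classical
  have hD0 : ∀ i, ∃ D : Derivation ℂ R R, toVF D = w i := fun i => (hw.glob i).exists_der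
  choose D hD using hD0
  obtain rfl : w = fun i => toVF (D i) := funext fun i => (hD i).symm
  let e := (Fintype.equivFin ι).symm
  have hI : Ind y (fun k => toVF (D (e k))) fun k => χ (e k) := ind_reindex hw e
  obtain ⟨x, hx⟩ := mem_span_of_top H y hI l hl (fun ψ h1 h2 => htop ψ h1 fun i => by
    have := h2 (e.symm i)
    rwa [Equiv.apply_symm_apply] at this) hpos hv hr
  have hx' : v = ∑ i, x (e.symm i) • toVF (D i) := by
    rw [hx, ← Equiv.sum_comp e]
    simp only [Equiv.symm_apply_apply]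
  refine ⟨fun i => x (e.symm i), fun i => ⟨?_, ?_⟩, hx'⟩
  · exact coeff_rg H.hX (fun i => (hw.glob i).rgV) hw.hv hw.inj hw.ne (by rw [← hx']; exact hr) i
  · exact hk_coef H.hX hw (by rw [← hx']; exact hv) i

omit [IsDomain R] in
theorem nfc_smul {k : ℕ} (w : Fin k → Derivation ℂ R R) (h : Fin k → R) (D : Derivation ℂ R R)
    (a : R) (i : Fin k) : nfc w h (⇑(a • D : Derivation ℂ R R)) i = a * nfc w h D i := by
  simp only [nfc, Finset.mul_sum]
  exact Finset.sum_congr rfl fun l _ => by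
    rw [Derivation.smul_apply, smul_eq_mul, mul_assoc]

omit [IsDomain R] in
theorem nf_smul {k : ℕ} (w : Fin k → Derivation ℂ R R) (h : Fin k → R) (D : Derivation ℂ R R)
    (a x : R) : nf w h (a • D) x = a * nf w h D x := by
  rw [nf_apply, nf_apply, Derivation.smul_apply, smul_eq_mul, mul_sub, Finset.mul_sum]
  congr 1
  · ring
  · exact Finset.sum_congr rfl fun i _ => by rw [nfc_smul, mul_assoc]

omit [IsDomain R] [GradedAlgebra 𝒜] in
/-- The fields and the numerator are homogeneous for the grading at the point. -/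
theorem hv_coarse {y : FP 𝒜} {w : Derivation ℂ R R} {N : ℕ} {γ χ : Fin r → ℤ}
    (hw : ∀ (d : ℕ) (m : Fin r → ℤ), ∀ x ∈ 𝒜 (d, m), w x ∈ 𝒜 (d + N, m + γ - χ))
    (κ : Fin r → ℤ) (x : R)
    (hx : x ∈ coarse 𝒜 (rl (AddMonoidHom.id (Fin r → ℤ)) y.ν) κ) :
    w x ∈ coarse 𝒜 (rl (AddMonoidHom.id (Fin r → ℤ)) y.ν) (κ + (γ - N • y.ν) - χ) := by
  refine coarse_induction (P := fun x => w x ∈
    coarse 𝒜 (rl (AddMonoidHom.id (Fin r → ℤ)) y.ν) (κ + (γ - N • y.ν) - χ)) ?_ ?_ ?_ hx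
  · rw [map_zero]
    exact Submodule.zero_mem _
  · intro a b ha hb
    rw [map_add]
    exact Submodule.add_mem _ ha hb
  · rintro ⟨d, m⟩ rfl z hz
    refine mem_coarse (hw d m z hz) ?_
    rw [rl_apply, rl_apply]
    simp only [AddMonoidHom.id_apply, add_smul]
    abel

theorem lemmaL_fin (H : Hyp 𝒜) (y : FP 𝒜) {k : ℕ} {w : Fin k → Derivation ℂ R R}
    {χ : Fin k → Fin r → ℤ} (hw : Ind y (fun i => toVF (w i)) χ) (l : (Fin r → ℤ) →+ ℤ)
    {lam b : Fin r → ℤ} {dz : ℕ} {z : R} (hz : Crd y (-b) dz z)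
    (hneg : ∀ ψ, y.Pi ψ → ψ ≠ -b → 0 ≤ l ψ)
    (htop : ∀ ψ, y.Pi ψ → (∀ i, ψ ≠ χ i) → l ψ < l lam + l b) (hlb : 0 < l b)
    (hpos : 0 < l lam + l b) {v : VF R} (hv : HV 𝒜 lam v) (K : ℕ)
    (hr : RM y.q (Set.range fun i => toVF (w i)) ((iK z) ^ K • v)) :
    RM y.q (Set.range fun i => toVF (w i)) v := by
  classical
  have hX := H.hX
  have := noeth hX
  obtain ⟨n, u, wt, ι, G, hn, hι, hdet, hPi, hout, hinj⟩ := exists_data H hw
  obtain ⟨N, γ, g, D, hg, hg0, hD, hDh⟩ := H900.exists_den hX hv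
  have hF : Fix (coarse 𝒜 (rl (AddMonoidHom.id (Fin r → ℤ)) y.ν)) y.q := fix_of_isFixed y.fix
  set h : Fin k → R := fun j => u (ι j) with hh
  have hdet0 : (wm w h).det ≠ 0 := by
    intro h0
    rw [h0, map_zero] at hdet
    exact hdet rfl
  obtain ⟨hz1, hz2, t, ht, htw, htz⟩ := hz
  have hb0 : -b ≠ 0 := by
    intro h0
    have : b = 0 := neg_eq_zero.1 h0
    rw [this, map_zero] at hlb
    exact lt_irrefl _ hlb
  have ht0 : t ≠ 0 := by
    rintro rfl
    exact htz rfl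
  have hPb : y.Pi (-b) := tangentWeight_of_ne y.fix hb0 ht htw ht0
  obtain ⟨i0, hi0⟩ := wt_of_tangentWeight hX y.fix G hn hPb
  -- `z` is a unit times `u i0`
  have hlneg : ∀ j, j ≠ i0 → 0 ≤ l (wt j) := by
    intro j hj
    by_cases h0 : wt j = 0
    · rw [h0, map_zero]
    · refine hneg _ (hPi j h0) fun h1 => hj ?_
      exact hinj j i0 h0 (by rw [h1, hi0])
  have hzc : z ∈ coarse 𝒜 (rl (AddMonoidHom.id (Fin r → ℤ)) y.ν) (-b) := by
    refine mem_coarse hz1 ?_
    rw [rl_apply, AddMonoidHom.id_apply, add_sub_cancel_left]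
  obtain ⟨s2, hs2, hs2'⟩ := lemmaA hF G (C := {κ | l κ < 0}) (J := {i0}) (by
    intro κ hκ j hj
    have h1 : l κ < 0 := hκ
    have h2 := hlneg j hj
    constructor
    · show l (κ - wt j) < 0
      rw [map_sub]
      linarith
    · intro h3
      rw [sub_eq_zero.1 h3] at h1
      linarith) (w := -b) (by
        show l (-b) < 0
        rw [map_neg]
        linarith) hzc (mem_mx.2 hz2)
  rw [Set.image_singleton] at hs2'
  obtain ⟨y2, hy2⟩ := Ideal.mem_span_singleton'.1 hs2'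
  have hy2q : y.q y2 ≠ 0 := by
    intro h0
    have h1 := congrArg t hy2
    rw [ht, ht, h0, G.zero i0, hs2, hz2, zero_mul, zero_mul, one_mul, zero_mul, add_zero,
      add_zero] at h1
    exact htz h1.symm
  have hu0 : u i0 ≠ 0 := by
    intro h0
    rw [h0, mul_zero] at hy2
    have hs20 : s2 ≠ 0 := by
      rintro rfl
      rw [map_zero] at hs2
      exact zero_ne_one hs2
    have hz0 : z = 0 := (mul_eq_zero.1 hy2.symm).resolve_left hs20
    rw [hz0, map_zero] at htz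
    exact htz rfl
  -- the pole
  have hDK : ∀ x, iK ((z ^ K • D) x) = iK g * ((iK z) ^ K • v) (iK x) := by
    intro x
    rw [Derivation.smul_apply, Derivation.smul_apply, smul_eq_mul, smul_eq_mul, iK_mul, hD,
      iK_pow]
    ring
  rw [rm_iff_regMod hX hg0 hDK, regMod_iff hg0 hdet] at hr
  obtain ⟨s1, hs1, hs1'⟩ := hr
  have hwc : ∀ i κ, ∀ x ∈ coarse 𝒜 (rl (AddMonoidHom.id (Fin r → ℤ)) y.ν) κ,
      w i x ∈ coarse 𝒜 (rl (AddMonoidHom.id (Fin r → ℤ)) y.ν) (κ - χ i) := by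
    intro i κ x hx
    have h1 := hv_coarse (y := y) (w := w i) (N := 0) (γ := 0) (χ := χ i) (by
      intro d m x hx
      rw [add_zero, add_zero]
      exact (hw.hv i).isHField d m x hx) κ x hx
    rwa [zero_smul, sub_zero, add_zero] at h1
  have hA : ∀ i j, wm w h i j ∈ coarse 𝒜 (rl (AddMonoidHom.id (Fin r → ℤ)) y.ν)
      (wt (ι j) - χ i) := fun i j => hwc i _ _ (G.hom (ι j))
  obtain ⟨s, hs, hs'⟩ := pole hF G (i0 := i0) hu0 (g := g * (wm w h).det)
    (γ := (γ - N • y.ν) + (∑ j, wt (ι j) - ∑ i, χ i)) (lam := lam)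
    (SetLike.mul_mem_graded (mem_coarse hg rfl) (det_mem hA)) (mul_ne_zero hg0 hdet0)
    (nf w h D) (by
      intro κ x hx
      have h1 := nf_mem (𝒜 := coarse 𝒜 (rl (AddMonoidHom.id (Fin r → ℤ)) y.ν)) (D := D)
        (τ := (γ - N • y.ν) - lam) hwc (fun j => G.hom (ι j)) (by
        intro κ x hx
        rw [← add_sub_assoc]
        exact hv_coarse hDh κ x hx) hx
      convert h1 using 2
      abel) (by
      refine ⟨K, s1 * y2 ^ K, ?_, ?_⟩
      · rw [map_mul, map_pow]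
        exact mul_ne_zero hs1 (pow_ne_zero _ hy2q)
      · intro x
        have h1 := hs1' x
        rw [nf_smul] at h1
        have h2 : s1 * y2 ^ K * u i0 ^ K * nf w h D x = s2 ^ K * (s1 * (z ^ K * nf w h D x)) := by
          have h3 : y2 ^ K * u i0 ^ K = s2 ^ K * z ^ K := by
            rw [← mul_pow, ← mul_pow, hy2]
          linear_combination s1 * nf w h D x * h3
        rw [h2]
        exact h1.mul_left _) (by
      intro k' hk' i
      by_cases hi : ∃ j, ι j = i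
      · obtain ⟨j, rfl⟩ := hi
        exact Or.inl (nf_eq_zero w h D j)
      · right
        push Not at hi
        intro c hc heq
        have h1 := congrArg l heq
        rw [map_add, map_sub, map_nsmul, hi0, map_neg, map_sum] at h1
        have h2 : 0 ≤ ∑ j, l (c j • wt j) := by
          refine Finset.sum_nonneg fun j _ => ?_
          rw [map_nsmul]
          by_cases hj : j = i0
          · rw [hj, hc, zero_smul]
          · exact nsmul_nonneg (hlneg j hj) _
        have h3 : (1 : ℤ) ≤ k' := by exact_mod_cast hk'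
        have h4 : l (wt i) - l lam < l b := by
          by_cases h0 : wt i = 0
          · rw [h0, map_zero]
            linarith
          · have := htop _ (hPi i h0) (hout i hi h0)
            linarith
        rw [nsmul_eq_mul] at h1
        nlinarith)
  rw [rm_iff_regMod hX hg0 hD, regMod_iff hg0 hdet]
  exact ⟨s, hs, hs'⟩

/-- **Lemma L.** -/
theorem lemmaL_core (H : Hyp 𝒜) (y : FP 𝒜) {ι : Type} [Fintype ι] {w : ι → VF R}
    {χ : ι → Fin r → ℤ} (hw : Ind y w χ) (l : (Fin r → ℤ) →+ ℤ) {lam b : Fin r → ℤ} {dz : ℕ}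
    {z : R} (hz : Crd y (-b) dz z) (hneg : ∀ ψ, y.Pi ψ → ψ ≠ -b → 0 ≤ l ψ)
    (htop : ∀ ψ, y.Pi ψ → (∀ i, ψ ≠ χ i) → l ψ < l lam + l b) (hlb : 0 < l b)
    (hpos : 0 < l lam + l b) {v : VF R} (hv : HV 𝒜 lam v) (k : ℕ)
    (hr : RM y.q (Set.range w) ((iK z) ^ k • v)) : RM y.q (Set.range w) v := by
  classical
  have hD0 : ∀ i, ∃ D : Derivation ℂ R R, toVF D = w i := fun i => (hw.glob i).exists_der
  choose D hD using hD0
  obtain rfl : w = fun i => toVF (D i) := funext fun i => (hD i).symm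
  let e := (Fintype.equivFin ι).symm
  have hI : Ind y (fun k => toVF (D (e k))) fun k => χ (e k) := ind_reindex hw e
  have hrange : (Set.range fun i => toVF (D i)) = Set.range fun k => toVF (D (e k)) :=
    (e.surjective.range_comp fun i => toVF (D i)).symm
  rw [hrange] at hr ⊢
  exact lemmaL_fin H y hI l hz hneg (fun ψ h1 h2 => htop ψ h1 fun i => by
    have := h2 (e.symm i)
    rwa [Equiv.apply_symm_apply] at this) hlb hpos hv k hr

end Vale.Agent.P280.H347
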