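import Vale.Agent.P280.H347.Step
import Vale.Agent.P280.H83.Api2
import Vale.Agent.P280.H900.Den

/-! P280, Plan N: the lowest point where a rational field is not regular modulo given fields. -/

open DirectSum Vale.Agent.P280.T Vale.Agent.P280.H127 Vale.Agent.P280.N

namespace Vale.Agent.P280.H347

variable {r : ℕ} {R : Type} [CommRing R] [IsDomain R] [Algebra ℂ R]
variable {𝒜 : ℕ × (Fin r → ℤ) → Submodule ℂ R} {k : ℕ}

theorem rm_iff_regMod (hX : IsTorusManifold 𝒜) {w : Fin k → Derivation ℂ R R} {v : VF R} {g : R}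
    (hg0 : g ≠ 0) {D : Derivation ℂ R R} (hD : ∀ h, iK (D h) = iK g * v (iK h))
    {q : R →ₐ[ℂ] ℂ} : RM q (Set.range fun i => toVF (w i)) v ↔ RegMod w g D q := by
  have key : ∀ (c : R) (f : Fin k → FractionRing R) (a : Fin k → R)
      (_ : ∀ i, iK (a i) = iK c * f i) (x : R),
      iK (c * D x - g * ∑ i, a i * w i x) =
        iK (c * g) * (v - ∑ i, f i • toVF (w i)) (iK x) := by
    intro c f a ha x
    rw [Derivation.sub_apply, sum_der_apply, iK_sub, iK_mul, iK_mul, iK_sum, hD, iK_mul, mul_sub,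
      Finset.mul_sum, Finset.mul_sum]
    congr 1
    · ring
    · refine Finset.sum_congr rfl fun i _ => ?_
      rw [toVF_iK, iK_mul, ha]
      ring
  rw [rm_range]
  constructor
  · rintro ⟨f, hf⟩
    obtain ⟨c, hc⟩ := IsLocalization.exist_integer_multiples_of_finite (nonZeroDivisors R) f
    choose a ha using hc
    have hc0 : (c : R) ≠ 0 := nonZeroDivisors.ne_zero c.2
    have ha' : ∀ i, iK (a i) = iK (c : R) * f i := by
      intro i
      have h1 := ha i
      rw [Algebra.smul_def] at h1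
      exact h1
    obtain ⟨s, hs, hs'⟩ := H900.exists_cond hX (g := (c : R) * g)
      (D := (c : R) • D - ∑ i, (g * a i) • w i) hf (by
      intro x
      rw [← key c f a ha' x, Derivation.sub_apply, sum_der_apply, Derivation.smul_apply,
        smul_eq_mul, Finset.mul_sum]
      congr 2
      exact Finset.sum_congr rfl fun i _ => by ring)
    refine ⟨c, a, s, hc0, hs, fun x => ?_⟩
    have h1 := hs' x
    rw [Derivation.sub_apply, sum_der_apply, Derivation.smul_apply, smul_eq_mul] at h1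
    have h2 : ∑ i, g * a i * w i x = g * ∑ i, a i * w i x := by
      rw [Finset.mul_sum]
      exact Finset.sum_congr rfl fun i _ => by ring
    rwa [h2] at h1
  · rintro ⟨c, a, s, hc, hs, H⟩
    have hcK : iK c ≠ 0 := iK_ne_zero hc
    refine ⟨fun i => iK (a i) / iK c, fun x => ?_⟩
    obtain ⟨y, hy⟩ := H x
    refine ⟨y, s, hs, ?_⟩
    have h1 := key c (fun i => iK (a i) / iK c) a (fun i => (mul_div_cancel₀ _ hcK).symm) x
    have h2 : iK (c * g) ≠ 0 := iK_ne_zero (mul_ne_zero hc hg0)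
    apply mul_left_cancel₀ h2
    rw [← iK_mul, ← hy, iK_mul s, h1]
    ring

section ind
variable [GradedAlgebra 𝒜]

/-- The values of the fields at a point where they are independent. -/
theorem ind_val (hX : IsTorusManifold 𝒜) {y : FP 𝒜} {w : Fin k → Derivation ℂ R R}
    {χ : Fin k → Fin r → ℤ} (hI : Ind y (fun i => toVF (w i)) χ) (i : Fin k) :
    IsTangent y.q (y.q.toLinearMap.comp (w i).toLinearMap) ∧
    HasWeight 𝒜 y.ν (χ i) (y.q.toLinearMap.comp (w i).toLinearMap) ∧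
    y.q.toLinearMap.comp (w i).toLinearMap ≠ 0 := by
  have h1 : ValV y.q (toVF (w i)) (y.q.toLinearMap.comp (w i).toLinearMap) := by
    intro h
    rw [toVF_iK]
    exact Val.iK _
  refine ⟨h1.isTangent, (hI.hv i).hasWeight hX y.nv y.fix h1, ?_⟩
  intro h0
  rw [h0] at h1
  exact hI.ne i h1

/-- Homogeneous functions with nonzero minor. -/
theorem ind_det (hX : IsTorusManifold 𝒜) {y : FP 𝒜} {w : Fin k → Derivation ℂ R R}
    {χ : Fin k → Fin r → ℤ} (hI : Ind y (fun i => toVF (w i)) χ) :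
    ∃ (h : Fin k → R) (η : Fin k → ℕ × (Fin r → ℤ)), (∀ i, h i ∈ 𝒜 (η i)) ∧
      y.q (wm w h).det ≠ 0 := by
  have h0 : ∀ i, ∃ (η : ℕ × (Fin r → ℤ)) (h : R), h ∈ 𝒜 η ∧ y.q (w i h) ≠ 0 := by
    intro i
    by_contra hcon
    push Not at hcon
    apply (ind_val hX hI i).2.2
    refine linearMap_ext_graded 𝒜 fun η h hh => ?_
    exact hcon η h hh
  choose η h hh hne using h0
  refine ⟨h, η, hh, ?_⟩
  have h1 : ∀ i j, i ≠ j → y.q (wm w h i j) = 0 := by
    intro i j hij
    by_contra hcon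
    have h2 : y.q (w i (h j)) ≠ 0 := hcon
    have h3 := (ind_val hX hI i).2.1 (η j).1 (η j).2 (h j) (hh j) h2
    have h4 := (ind_val hX hI j).2.1 (η j).1 (η j).2 (h j) (hh j) (hne j)
    apply hij
    apply hI.inj
    rw [h3] at h4
    exact add_left_cancel h4
  have h2 : y.q (wm w h).det = ∏ i, y.q (w i (h i)) := by
    have h3 : y.q (wm w h).det = (y.q.toRingHom.mapMatrix (wm w h)).det :=
      RingHom.map_det y.q.toRingHom (wm w h)
    have h4 : y.q.toRingHom.mapMatrix (wm w h) = Matrix.diagonal fun i => y.q (w i (h i)) := by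
      ext i j
      rw [Matrix.diagonal_apply]
      by_cases hij : i = j
      · subst hij
        rw [if_pos rfl]
        rfl
      · rw [if_neg hij]
        exact h1 i j hij
    rw [h3, h4, Matrix.det_diagonal]
  rw [h2]
  exact Finset.prod_ne_zero_iff.2 fun i _ => hne i

/-- Parameters dual to the fields. -/
theorem ind_params (hX : IsTorusManifold 𝒜) {y : FP 𝒜} {w : Fin k → Derivation ℂ R R}
    {χ : Fin k → Fin r → ℤ} (hI : Ind y (fun i => toVF (w i)) χ) {n : ℕ} {u : Fin n → R}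
    {wt : Fin n → Fin r → ℤ}
    (G : Gens (coarse 𝒜 (rl (AddMonoidHom.id (Fin r → ℤ)) y.ν)) y.q u wt)
    (hn : (n : ℕ∞) = (mx y.q).height) :
    ∃ ι : Fin k → Fin n, (∀ i, wt (ι i) = χ i) ∧ y.q (wm w fun j => u (ι j)).det ≠ 0 := by
  have := noeth hX
  obtain ⟨v, hvT, hvu, hvw, hsp⟩ := G.exists_dual (fix_of_isFixed y.fix) hn.le
  have hw0 : ∀ i j, y.q (w i (u j)) ≠ 0 → wt j = χ i := by
    intro i j hne
    by_contra hcon
    exact hne ((weight_iff (w := AddMonoidHom.id (Fin r → ℤ)) (γ := y.ν)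
      (v := y.q.toLinearMap.comp (w i).toLinearMap)).mpr (ind_val hX hI i).2.1 (wt j) hcon _
      (G.hom j))
  have h0 : ∀ i, ∃ j, y.q (w i (u j)) ≠ 0 := by
    intro i
    by_contra hcon
    push Not at hcon
    apply (ind_val hX hI i).2.2
    rw [hsp _ (ind_val hX hI i).1]
    refine Finset.sum_eq_zero fun j _ => ?_
    change y.q (w i (u j)) • v j = 0
    rw [hcon j, zero_smul]
  choose ι hι using h0
  refine ⟨ι, fun i => hw0 i _ (hι i), ?_⟩
  have h1 : ∀ i j, i ≠ j → y.q (wm w (fun j => u (ι j)) i j) = 0 := by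
    intro i j hij
    by_contra hcon
    have h2 : y.q (w i (u (ι j))) ≠ 0 := hcon
    apply hij
    apply hI.inj
    rw [← hw0 i _ h2, ← hw0 j _ (hι j)]
  have h2 : y.q (wm w fun j => u (ι j)).det = ∏ i, y.q (w i (u (ι i))) := by
    have h3 : y.q (wm w fun j => u (ι j)).det =
        (y.q.toRingHom.mapMatrix (wm w fun j => u (ι j))).det :=
      RingHom.map_det y.q.toRingHom _
    have h4 : y.q.toRingHom.mapMatrix (wm w fun j => u (ι j)) =
        Matrix.diagonal fun i => y.q (w i (u (ι i))) := by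
      ext i j
      rw [Matrix.diagonal_apply]
      by_cases hij : i = j
      · subst hij
        rw [if_pos rfl]
        rfl
      · rw [if_neg hij]
        exact h1 i j hij
    rw [h3, h4, Matrix.det_diagonal]
  rw [h2]
  exact Finset.prod_ne_zero_iff.2 fun i _ => hι i

omit [IsDomain R] in
/-- Two parameters of the same nonzero weight are the same, when the weights have multiplicity
one. -/
theorem wt_inj (H : Hyp 𝒜) (y : FP 𝒜) {n : ℕ} {u : Fin n → R} {wt : Fin n → Fin r → ℤ}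
    (G : Gens (coarse 𝒜 (rl (AddMonoidHom.id (Fin r → ℤ)) y.ν)) y.q u wt)
    (hn : (n : ℕ∞) = (mx y.q).height) {i j : Fin n} (hi : wt i ≠ 0) (hij : wt i = wt j) :
    i = j := by
  have := noeth H.hX
  obtain ⟨v, hvT, hvu, hvw, hsp⟩ := G.exists_dual (fix_of_isFixed y.fix) hn.le
  by_contra hne
  have hj : HasWeight 𝒜 y.ν (wt i) (v j) := by
    rw [hij]
    exact weight_iff.mp (hvw j)
  obtain ⟨c, c', hc, h⟩ := H.mult y.q y.ν (wt i) y.nv y.fix
    (tangentWeight_of_wt H.hX y.fix G hn hi) (v i) (v j) (hvT i) (weight_iff.mp (hvw i))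
    (hvT j) hj
  have h1 := h (u i)
  have h2 := h (u j)
  rw [hvu, hvu, if_pos rfl, if_neg (Ne.symm hne), mul_one, mul_zero, add_zero] at h1
  rw [hvu, hvu, if_pos rfl, if_neg hne, mul_one, mul_zero, zero_add] at h2
  rcases hc with hc | hc
  · exact hc h1
  · exact hc h2

end ind

section bad
variable [GradedAlgebra 𝒜]

/-- **The weights at a lowest bad point.** `y` is a lowest point for `l` where `v` is not regular
modulo the fields `W`, which are independent at `y`: then at most one weight `b` at `y` is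
`l`-negative, and `n b + om - lam` is a sum of weights at `y` other than `b`, for some `n > 0` and
some `om` which is `0` or a weight at `y` other than the `χ i`. -/
theorem bad_weights (H : Hyp 𝒜) {W : Fin k → VF R} {χ : Fin k → Fin r → ℤ} {y : FP 𝒜}
    (hI : Ind y W χ) {lam : Fin r → ℤ} {v : VF R} (hv : HV 𝒜 lam v) {Γ : Type}
    [AddCommGroup Γ] [LinearOrder Γ] [IsOrderedAddMonoid Γ] (l : (Fin r → ℤ) →+ Γ)
    (hy : ¬ RM y.q (Set.range W) v)
    (hlow : ∀ z : R →ₐ[ℂ] ℂ, ¬ RM z (Set.range W) v → ∀ d m, ∀ h ∈ 𝒜 (d, m), z h ≠ 0 →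
      d • l y.ν ≤ l m) {b : Fin r → ℤ} (hb : y.Pi b) (hlb : l b < 0) :
    (∀ b', y.Pi b' → l b' < 0 → b' = b) ∧
      ∃ (n : ℕ) (om s : Fin r → ℤ), 0 < n ∧ (om = 0 ∨ (y.Pi om ∧ om ∉ Set.range χ)) ∧
        s ∈ AddSubmonoid.closure {om | y.Pi om ∧ om ≠ b} ∧ n • b + (om - lam) = s := by
  have hX := H.hX
  have := hX.finiteType
  have hD0 : ∀ i, ∃ D : Derivation ℂ R R, toVF D = W i ∧ H93.IsHField 𝒜 (χ i) D :=
    fun i => Glob.exists_hder (hI.glob i) (hI.hv i)
  choose w hwW hwh using hD0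
  obtain rfl : W = fun i => toVF (w i) := funext fun i => (hwW i).symm
  obtain ⟨N, γ, g, D, hg, hg0, hD, hDh⟩ := H900.exists_den hX hv
  have hbad : ∀ z : R →ₐ[ℂ] ℂ, ¬ RM z (Set.range fun i => toVF (w i)) v ↔
      ∀ x ∈ polar w g D, z x = 0 := by
    intro z
    rw [rm_iff_regMod hX hg0 hD, regMod_iff_polar]
    push Not
    rfl
  obtain ⟨n, u, wt, G, hn⟩ := exists_params_T hX
    (f := rl (AddMonoidHom.id (Fin r → ℤ)) y.ν) y.nv (fix_of_isFixed y.fix)
  obtain ⟨ι, hι, hdet⟩ := ind_params hX hI G hn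
  obtain ⟨hs1, hs2⟩ := local_step hX y.nv y.fix G hn (χ := χ)
    (fun i d m x hx => hwh i d m x hx) hdet hg hg0 hDh ((hbad _).1 hy) (fun m => l m < 0) (by
      intro d m hlm x hx
      by_contra hcon
      obtain ⟨z, hz, hzx⟩ := exists_point hcon
      have h2 := hlow z ((hbad z).2 hz) d m x hx hzx
      rw [map_sub, map_nsmul, sub_neg] at hlm
      exact absurd hlm (not_lt.2 h2))
  obtain ⟨i0, hi0⟩ := wt_of_tangentWeight hX y.fix G hn hb
  have hb0 : b ≠ 0 := by
    rintro rfl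
    rw [map_zero] at hlb
    exact lt_irrefl _ hlb
  have hPi : ∀ i, wt i ≠ 0 → y.Pi (wt i) := fun i hi => tangentWeight_of_wt hX y.fix G hn hi
  refine ⟨fun b' hb' hlb' => ?_, ?_⟩
  · obtain ⟨i1, hi1⟩ := wt_of_tangentWeight hX y.fix G hn hb'
    rw [← hi0, ← hi1, hs1 i1 i0 (by rw [hi1]; exact hlb') (by rw [hi0]; exact hlb)]
  · obtain ⟨n', i, c, hn', hi, hc, hsum⟩ := hs2 i0 (by rw [hi0]; exact hlb)
    refine ⟨n', wt i, ∑ j, c j • wt j, hn', ?_, ?_, by rw [← hi0]; exact hsum⟩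
    · by_cases h0 : wt i = 0
      · exact Or.inl h0
      · right
        refine ⟨hPi i h0, ?_⟩
        rintro ⟨j, hj⟩
        apply hi j
        exact wt_inj H y G hn (by rw [hι, hj]; exact h0) (by rw [hι, hj])
    · refine AddSubmonoid.sum_mem _ fun j _ => ?_
      by_cases hj : j = i0
      · rw [hj, hc, zero_smul]
        exact AddSubmonoid.zero_mem _
      · by_cases h0 : wt j = 0
        · rw [h0, smul_zero]
          exact AddSubmonoid.zero_mem _
        · have h3 : wt j ∈ {om | y.Pi om ∧ om ≠ b} := by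
            refine ⟨hPi j h0, ?_⟩
            intro h2
            apply hj
            exact wt_inj H y G hn h0 (by rw [h2, hi0])
          exact AddSubmonoid.nsmul_mem _ (AddSubmonoid.subset_closure h3) _

/-- **There is a lowest bad point.** `W` global fields, independent somewhere, `v` a homogeneous
rational field which is not regular modulo `W` at some point. For every injective homomorphism `l`
of the characters to an ordered group there is a point fixed by the torus where `v` is not regular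
modulo `W`, and which is `l`-lowest among all such points. -/
theorem exists_lowest_bad (hX : IsTorusManifold 𝒜) {W : Fin k → VF R} {χ : Fin k → Fin r → ℤ}
    {y1 : FP 𝒜} (hI : Ind y1 W χ) {lam : Fin r → ℤ} {v : VF R} (hv : HV 𝒜 lam v) {Γ : Type}
    [AddCommGroup Γ] [LinearOrder Γ] [IsOrderedAddMonoid Γ] (l : (Fin r → ℤ) →+ Γ)
    (hl : Function.Injective l) {z : R →ₐ[ℂ] ℂ} (hz0 : ¬ IsVertex 𝒜 z)
    (hz : ¬ RM z (Set.range W) v) :
    ∃ y : FP 𝒜, ¬ RM y.q (Set.range W) v ∧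
      ∀ z : R →ₐ[ℂ] ℂ, ¬ RM z (Set.range W) v → ∀ d m, ∀ h ∈ 𝒜 (d, m), z h ≠ 0 →
        d • l y.ν ≤ l m := by
  have hD0 : ∀ i, ∃ D : Derivation ℂ R R, toVF D = W i ∧ H93.IsHField 𝒜 (χ i) D :=
    fun i => Glob.exists_hder (hI.glob i) (hI.hv i)
  choose w hwW hwh using hD0
  obtain rfl : W = fun i => toVF (w i) := funext fun i => (hwW i).symm
  obtain ⟨N, γ, g, D, hg, hg0, hD, hDh⟩ := H900.exists_den hX hv
  have hbad : ∀ z : R →ₐ[ℂ] ℂ, ¬ RM z (Set.range fun i => toVF (w i)) v ↔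
      ∀ x ∈ polar w g D, z x = 0 := by
    intro z
    rw [rm_iff_regMod hX hg0 hD, regMod_iff_polar]
    push Not
    rfl
  obtain ⟨h1, η1, hh1, hdet1⟩ := ind_det hX hI
  have hdet0 : (wm w h1).det ≠ 0 := by
    intro h0
    rw [h0, map_zero] at hdet1
    exact hdet1 rfl
  obtain ⟨γ0, q, hq0, hqI, hq1, hq2, ν, hν, f, hf, hqf⟩ := exists_lowest hX l
    (I := polar w g D) (fun x hx i => decompose_mem_polar (χ := χ) (η := η1) (κ := γ - lam)
      (fun i d m x hx => hwh i d m x hx) hh1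
      (fun d m x hx => by
        have h2 := hDh d m x hx
        rwa [add_sub_assoc] at h2) hg hg0 hdet0 hx i) ⟨z, (hbad z).1 hz, hz0⟩
  have hfix : IsFixed 𝒜 q ν := by
    intro d m h hh hne
    apply hl
    rw [hq1 d m h hh hne, map_nsmul, hν]
  refine ⟨⟨q, ν, hq0, hfix⟩, (hbad q).2 hqI, fun z' hz' d m h hh hne => ?_⟩
  change d • l ν ≤ l m
  rw [hν]
  refine hq2 d m h hh ?_
  rintro ⟨n, hn⟩
  have h2 := (hbad z').1 hz' _ hn
  rw [map_pow] at h2
  exact hne (eq_zero_of_pow_eq_zero h2)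

/-- **The lowest bad point.** Both statements together. -/
theorem exists_bad (H : Hyp 𝒜) {W : Fin k → VF R} {χ : Fin k → Fin r → ℤ} {y1 : FP 𝒜}
    (hI : Ind y1 W χ) {lam : Fin r → ℤ} {v : VF R} (hv : HV 𝒜 lam v) {Γ : Type}
    [AddCommGroup Γ] [LinearOrder Γ] [IsOrderedAddMonoid Γ] (l : (Fin r → ℤ) →+ Γ)
    (hl : Function.Injective l) {z : R →ₐ[ℂ] ℂ} (hz0 : ¬ IsVertex 𝒜 z)
    (hz : ¬ RM z (Set.range W) v) :
    ∃ y : FP 𝒜, ¬ RM y.q (Set.range W) v ∧
      (∀ z : R →ₐ[ℂ] ℂ, ¬ RM z (Set.range W) v → ∀ d m, ∀ h ∈ 𝒜 (d, m), z h ≠ 0 →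
        d • l y.ν ≤ l m) ∧
      (Ind y W χ → ∀ b, y.Pi b → l b < 0 → (∀ b', y.Pi b' → l b' < 0 → b' = b) ∧
        ∃ (n : ℕ) (om s : Fin r → ℤ), 0 < n ∧ (om = 0 ∨ (y.Pi om ∧ om ∉ Set.range χ)) ∧
          s ∈ AddSubmonoid.closure {om | y.Pi om ∧ om ≠ b} ∧ n • b + (om - lam) = s) := by
  obtain ⟨y, h1, h2⟩ := exists_lowest_bad H.hX hI hv l hl hz0 hz
  exact ⟨y, h1, h2, fun hIy b hb hlb => bad_weights H hIy hv l h1 h2 hb hlb⟩

end bad

end Vale.Agent.P280.H347
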