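import Vale.Agent.P280.H347.Polar
import Vale.Agent.P280.H587.Base

/-! P280, Plan N: the polar ideal is homogeneous. -/

open DirectSum Vale.Agent.P280.T Vale.Agent.P280.H127

namespace Vale.Agent.P280.H347

section grp
variable {Λ R : Type} [AddCommGroup Λ] [DecidableEq Λ] [CommRing R] [Algebra ℂ R] {r : ℕ}
variable {𝒜 : Λ → Submodule ℂ R} [GradedAlgebra 𝒜]

theorem cp_sub' (𝒜 : Λ → Submodule ℂ R) [GradedAlgebra 𝒜] (i : Λ) (y z : R) :
    cp 𝒜 i (y - z) = cp 𝒜 i y - cp 𝒜 i z := by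
  have h := cp_add 𝒜 i (y - z) z
  rw [sub_add_cancel] at h
  rw [h, add_sub_cancel_right]

/-- The components of a derivation. -/
theorem exists_comp_der (𝒜 : Λ → Submodule ℂ R) [GradedAlgebra 𝒜] (D : Derivation ℂ R R)
    (κ : Λ) : ∃ D' : Derivation ℂ R R, ∀ k, ∀ x ∈ 𝒜 k, D' x = cp 𝒜 (k + κ) (D x) := by
  obtain ⟨F, hF⟩ := H587.exists_linearMap 𝒜
    (fun i : Λ => (GradedAlgebra.proj 𝒜 (i + κ)).comp D.toLinearMap)
  have hF' : ∀ k, ∀ x ∈ 𝒜 k, F x = cp 𝒜 (k + κ) (D x) := by
    intro k x hx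
    rw [hF k x hx]
    rfl
  have hL : ∀ x y : R, F (x * y) = x • F y + y • F x := by
    intro a b
    let F1 : R →ₗ[ℂ] R →ₗ[ℂ] R := (LinearMap.mul ℂ R).compr₂ F
    let G : R →ₗ[ℂ] R →ₗ[ℂ] R := (LinearMap.mul ℂ R).compl₂ F + ((LinearMap.mul ℂ R).compl₂ F).flip
    have key := H587.bilin_ext 𝒜 (F := F1) (G := G) (by
      intro i j a ha b hb
      change F (a * b) = a * F b + b * F a
      rw [hF' _ _ (SetLike.mul_mem_graded ha hb), hF' _ _ ha, hF' _ _ hb, D.leibniz, cp_add,
        smul_eq_mul, smul_eq_mul, cp_mul_left 𝒜 ha, cp_mul_left 𝒜 hb]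
      congr 3
      · abel
      · abel) a b
    exact key
  exact ⟨Derivation.mk' F hL, hF'⟩

theorem mem_polar_iff_nf [IsDomain R] {w : Fin r → Derivation ℂ R R} {h : Fin r → R} {g : R}
    (hg : g ≠ 0) {D : Derivation ℂ R R} (hdet : (wm w h).det ≠ 0) {s : R} :
    s ∈ polar w g D ↔ ∃ ρ : Derivation ℂ R R, ∀ x, s * nf w h D x = g * nf w h ρ x := by
  constructor
  · rintro ⟨c, a, hc, H⟩
    choose y hy using H
    have hcg : c * g ≠ 0 := mul_ne_zero hc hg
    let ρ : Derivation ℂ R R := Derivation.mk'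
      { toFun := y
        map_add' := by
          intro x x'
          apply mul_left_cancel₀ hcg
          rw [← hy, mul_add, ← hy, ← hy, map_add]
          simp only [map_add, mul_add, Finset.sum_add_distrib]
          ring
        map_smul' := by
          intro t x
          apply mul_left_cancel₀ hcg
          have e1 : ∑ i, a i * w i (t • x) = t • ∑ i, a i * w i x := by
            rw [Finset.smul_sum]
            exact Finset.sum_congr rfl fun i _ => by rw [(w i).map_smul, mul_smul_comm]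
          rw [← hy, RingHom.id_apply, mul_smul_comm, ← hy, D.map_smul, e1, smul_sub,
            mul_smul_comm, mul_smul_comm] } (by
        intro x x'
        apply mul_left_cancel₀ hcg
        change c * g * y (x * x') = c * g * (x • y x' + x' • y x)
        rw [← hy, smul_eq_mul, smul_eq_mul, mul_add, mul_left_comm, ← hy, mul_left_comm _ x',
          ← hy]
        simp only [Derivation.leibniz, smul_eq_mul, mul_add, Finset.sum_add_distrib]
        have e1 : ∑ i, a i * (x * w i x') = x * ∑ i, a i * w i x' := by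
          rw [Finset.mul_sum]
          exact Finset.sum_congr rfl fun i _ => by ring
        have e2 : ∑ i, a i * (x' * w i x) = x' * ∑ i, a i * w i x := by
          rw [Finset.mul_sum]
          exact Finset.sum_congr rfl fun i _ => by ring
        rw [e1, e2]
        ring)
    have hρ : ∀ x, s * c * D x - g * ∑ i, a i * w i x = c * g * ρ x := hy
    refine ⟨ρ, fun x => ?_⟩
    apply mul_left_cancel₀ hc
    have e1 : ∀ k, c * g * nfc w h ρ k = s * c * nfc w h D k - g * (a k * (wm w h).det) := by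
      intro k
      have e2 : nfc w h (fun x => c * g * ρ x) k = c * g * nfc w h ρ k := by
        simp only [nfc, Finset.mul_sum, mul_assoc]
      have e3 : nfc w h (fun x => s * c * D x - g * ∑ i, a i * w i x) k =
          s * c * nfc w h D k - g * ∑ i, a i * nfc w h (w i) k := by
        simp only [nfc, Finset.mul_sum, Finset.sum_mul, sub_mul, Finset.sum_sub_distrib]
        congr 1
        · exact Finset.sum_congr rfl fun l _ => by ring
        · rw [Finset.sum_comm]
          exact Finset.sum_congr rfl fun i _ => Finset.sum_congr rfl fun l _ => by ring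
      rw [← e2, ← (funext hρ : (fun x => s * c * D x - g * ∑ i, a i * w i x) = _), e3]
      simp only [nfc_self, mul_ite, mul_zero, Finset.sum_ite_eq', Finset.mem_univ, if_true]
    have e5 : ∑ k, c * g * nfc w h ρ k * w k x = c * g * ∑ k, nfc w h ρ k * w k x := by
      rw [Finset.mul_sum]
      exact Finset.sum_congr rfl fun k _ => by ring
    have e6 : ∑ k, c * g * nfc w h ρ k * w k x =
        s * c * ∑ k, nfc w h D k * w k x - g * (wm w h).det * ∑ k, a k * w k x := by
      rw [Finset.mul_sum, Finset.mul_sum, ← Finset.sum_sub_distrib]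
      refine Finset.sum_congr rfl fun k _ => ?_
      rw [e1 k]
      ring
    rw [e5] at e6
    rw [nf_apply, nf_apply]
    linear_combination (wm w h).det * hρ x + e6
  · rintro ⟨ρ, hρ⟩
    refine ⟨g * (wm w h).det, fun k => s * nfc w h D k - g * nfc w h ρ k, mul_ne_zero hg hdet,
      fun x => ⟨ρ x, ?_⟩⟩
    have h1 := hρ x
    rw [nf_apply, nf_apply] at h1
    have h2 : ∑ k, (s * nfc w h D k - g * nfc w h ρ k) * w k x =
        s * ∑ k, nfc w h D k * w k x - g * ∑ k, nfc w h ρ k * w k x := by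
      rw [Finset.mul_sum, Finset.mul_sum, ← Finset.sum_sub_distrib]
      exact Finset.sum_congr rfl fun k _ => by ring
    rw [h2]
    linear_combination g * h1

/-- The polar ideal is homogeneous, grading by a group. -/
theorem cp_mem_polar [IsDomain R] {w : Fin r → Derivation ℂ R R} {h : Fin r → R} {g : R}
    {D : Derivation ℂ R R} {χ η : Fin r → Λ} {τ γ : Λ}
    (hw : ∀ i k, ∀ x ∈ 𝒜 k, w i x ∈ 𝒜 (k - χ i)) (hh : ∀ i, h i ∈ 𝒜 (η i))
    (hD : ∀ k, ∀ x ∈ 𝒜 k, D x ∈ 𝒜 (k + τ)) (hg : g ∈ 𝒜 γ) (hg0 : g ≠ 0)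
    (hdet : (wm w h).det ≠ 0) {s : R} (hs : s ∈ polar w g D) (i : Λ) :
    cp 𝒜 i s ∈ polar w g D := by
  rw [mem_polar_iff_nf hg0 hdet] at hs ⊢
  obtain ⟨ρ, hρ⟩ := hs
  obtain ⟨ρ', hρ'⟩ := exists_comp_der 𝒜 ρ (i + τ - γ)
  have hA : ∀ i j, wm w h i j ∈ 𝒜 (η j - χ i) := fun i j => hw i _ _ (hh j)
  set ε : Λ := ∑ j, η j - ∑ i, χ i with hε
  -- the components of the normal form of `ρ`
  have key : ∀ k, ∀ x ∈ 𝒜 k, nf w h ρ' x = cp 𝒜 (k + (i + τ - γ) + ε) (nf w h ρ x) := by
    intro k x hx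
    rw [nf_apply, nf_apply, cp_sub', cp_sum, cp_mul_left 𝒜 (det_mem (𝒜 := 𝒜) hA), hρ' k x hx]
    congr 1
    · congr 2
      rw [hε]
      abel
    · refine Finset.sum_congr rfl fun m _ => ?_
      rw [cp_mul_right 𝒜 (hw m k x hx)]
      congr 1
      rw [nfc, nfc, cp_sum]
      refine Finset.sum_congr rfl fun l _ => ?_
      rw [cp_mul_right 𝒜 (adj_mem (𝒜 := 𝒜) hA l m), hρ' _ _ (hh l)]
      congr 2
      rw [hε]
      abel
  refine ⟨ρ', fun x => ?_⟩
  refine hom_ind 𝒜 (P := fun x => cp 𝒜 i s * nf w h D x = g * nf w h ρ' x) ?_ ?_ ?_ x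
  · rw [map_zero, map_zero, mul_zero, mul_zero]
  · intro y z hy hz
    rw [map_add, map_add, mul_add, mul_add, hy, hz]
  · intro k y hy
    have h1 := congrArg (cp 𝒜 (i + (k + τ + ε))) (hρ y)
    rw [cp_mul_right 𝒜 (nf_mem hw hh hD hy), add_sub_cancel_right, cp_mul_left 𝒜 hg] at h1
    rw [h1, key k y hy]
    congr 2
    abel

end grp

section nat
variable {M R : Type} [AddCommGroup M] [DecidableEq M] [CommRing R] [Algebra ℂ R] {r : ℕ}
variable {𝒜 : ℕ × M → Submodule ℂ R} [GradedAlgebra 𝒜]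

/-- The inclusion of the degrees. -/
def emb (M : Type) [AddCommGroup M] : ℕ × M →+ ℤ × M :=
  (Nat.castAddMonoidHom ℤ).prodMap (AddMonoidHom.id M)

omit [DecidableEq M] in
theorem emb_apply (d : ℕ) (m : M) : emb M (d, m) = ((d : ℤ), m) := rfl

omit [DecidableEq M] in
theorem emb_inj {i j : ℕ × M} (h : emb M i = emb M j) : i = j := by
  obtain ⟨a, b⟩ := i
  obtain ⟨c, d⟩ := j
  rw [emb_apply, emb_apply, Prod.mk.injEq] at h
  rw [Prod.mk.injEq]
  exact ⟨by exact_mod_cast h.1, h.2⟩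

theorem decompose_eq_cp (x : R) (i : ℕ × M) :
    (decompose 𝒜 x i : R) = cp (coarse 𝒜 (emb M)) (emb M i) x := by
  refine hom_ind' 𝒜 (P := fun x => (decompose 𝒜 x i : R) =
    cp (coarse 𝒜 (emb M)) (emb M i) x) ?_ ?_ ?_ x
  · simp [cp]
  · intro x y hx hy
    rw [decompose_add, DirectSum.add_apply, Submodule.coe_add, hx, hy, cp_add]
  · intro j y hy
    by_cases hij : j = i
    · subst hij
      rw [decompose_of_mem_same 𝒜 hy, cp_of_mem _ (mem_coarse hy rfl)]
    · rw [decompose_of_mem_ne 𝒜 hy hij, cp_of_mem_ne _ (mem_coarse hy rfl) fun h =>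
        hij (emb_inj h)]

/-- **The polar ideal is homogeneous.** -/
theorem decompose_mem_polar [IsDomain R] {w : Fin r → Derivation ℂ R R} {h : Fin r → R} {g : R}
    {D : Derivation ℂ R R} {χ : Fin r → M} {η : Fin r → ℕ × M} {N N' : ℕ} {κ γ : M}
    (hw : ∀ i (d : ℕ) (m : M), ∀ x ∈ 𝒜 (d, m), w i x ∈ 𝒜 (d, m - χ i)) (hh : ∀ i, h i ∈ 𝒜 (η i))
    (hD : ∀ (d : ℕ) (m : M), ∀ x ∈ 𝒜 (d, m), D x ∈ 𝒜 (d + N, m + κ)) (hg : g ∈ 𝒜 (N', γ))
    (hg0 : g ≠ 0) (hdet : (wm w h).det ≠ 0) {s : R} (hs : s ∈ polar w g D) (i : ℕ × M) :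
    (decompose 𝒜 s i : R) ∈ polar w g D := by
  rw [decompose_eq_cp]
  refine cp_mem_polar (𝒜 := coarse 𝒜 (emb M)) (χ := fun i => ((0 : ℤ), χ i))
    (η := fun i => emb M (η i)) (τ := ((N : ℤ), κ)) (γ := emb M (N', γ)) (h := h) ?_
    (fun i => mem_coarse (hh i) rfl) ?_ (mem_coarse hg rfl) hg0 hdet hs _
  · intro i k x hx
    refine coarse_induction (P := fun x => w i x ∈ coarse 𝒜 (emb M) (k - ((0 : ℤ), χ i)))
      ?_ ?_ ?_ hx
    · rw [map_zero]
      exact Submodule.zero_mem _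
    · intro a b ha hb
      rw [map_add]
      exact Submodule.add_mem _ ha hb
    · rintro ⟨d, m⟩ rfl y hy
      refine mem_coarse (hw i d m y hy) ?_
      rw [emb_apply, emb_apply, Prod.mk_sub_mk, sub_zero]
  · intro k x hx
    refine coarse_induction (P := fun x => D x ∈ coarse 𝒜 (emb M) (k + ((N : ℤ), κ)))
      ?_ ?_ ?_ hx
    · rw [map_zero]
      exact Submodule.zero_mem _
    · intro a b ha hb
      rw [map_add]
      exact Submodule.add_mem _ ha hb
    · rintro ⟨d, m⟩ rfl y hy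
      refine mem_coarse (hD d m y hy) ?_
      rw [emb_apply, emb_apply, Prod.mk_add_mk, Nat.cast_add]

end nat

end Vale.Agent.P280.H347
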