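import Vale.Agent.P280.H347.Pole
import Vale.Agent.P280.H93.Minors

/-! P280, Plan N: the normal form of a rational derivation modulo given fields. -/

open DirectSum Vale.Agent.P280.T Vale.Agent.P280.H127

namespace Vale.Agent.P280.H347

section nf
variable {R : Type} [CommRing R] [Algebra ℂ R] {r : ℕ}

/-- The matrix `w i (h j)`. -/
def wm (w : Fin r → Derivation ℂ R R) (h : Fin r → R) : Matrix (Fin r) (Fin r) R :=
  Matrix.of fun i j => w i (h j)

theorem wm_apply (w : Fin r → Derivation ℂ R R) (h : Fin r → R) (i j : Fin r) :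
    wm w h i j = w i (h j) := rfl

/-- The coefficients of the fields in the normal form. -/
noncomputable def nfc (w : Fin r → Derivation ℂ R R) (h : Fin r → R) (D : R → R) (k : Fin r) : R :=
  ∑ l, D (h l) * (wm w h).adjugate l k

/-- The normal form of a derivation modulo the fields `w`: it kills the functions `h`. -/
noncomputable def nf (w : Fin r → Derivation ℂ R R) (h : Fin r → R) (D : Derivation ℂ R R) :
    Derivation ℂ R R :=
  (wm w h).det • D - ∑ k, nfc w h D k • w k

theorem sum_der_apply {ι : Type*} (s : Finset ι) (c : ι → R) (w : ι → Derivation ℂ R R) (x : R) :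
    (∑ k ∈ s, c k • w k) x = ∑ k ∈ s, c k * w k x := by
  classical
  induction s using Finset.induction_on with
  | empty => simp
  | insert a s ha ih =>
    rw [Finset.sum_insert ha, Finset.sum_insert ha, Derivation.add_apply, ih,
      Derivation.smul_apply, smul_eq_mul]

theorem nf_apply (w : Fin r → Derivation ℂ R R) (h : Fin r → R) (D : Derivation ℂ R R) (x : R) :
    nf w h D x = (wm w h).det * D x - ∑ k, nfc w h D k * w k x := by
  rw [nf, Derivation.sub_apply, sum_der_apply, Derivation.smul_apply, smul_eq_mul]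

theorem sum_nfc (w : Fin r → Derivation ℂ R R) (h : Fin r → R) (D : R → R) (l : Fin r) :
    ∑ k, nfc w h D k * w k (h l) = (wm w h).det * D (h l) := by
  have h1 : (wm w h).adjugate * wm w h = (wm w h).det • 1 := Matrix.adjugate_mul _
  have h2 : ∀ l', ∑ k, (wm w h).adjugate l' k * w k (h l) =
      if l' = l then (wm w h).det else 0 := by
    intro l'
    have h3 := congrFun (congrFun h1 l') l
    rw [Matrix.mul_apply, Matrix.smul_apply, Matrix.one_apply, smul_eq_mul] at h3
    simpa [wm_apply] using h3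
  simp only [nfc, Finset.sum_mul, mul_assoc]
  rw [Finset.sum_comm]
  simp only [← Finset.mul_sum, h2, mul_ite, mul_zero, Finset.sum_ite_eq', Finset.mem_univ,
    if_true]
  ring

theorem nf_eq_zero (w : Fin r → Derivation ℂ R R) (h : Fin r → R) (D : Derivation ℂ R R)
    (l : Fin r) : nf w h D (h l) = 0 := by
  rw [nf_apply, sum_nfc, sub_self]

/-- The coefficients of the normal form of one of the fields. -/
theorem nfc_self (w : Fin r → Derivation ℂ R R) (h : Fin r → R) (i k : Fin r) :
    nfc w h (w i) k = if i = k then (wm w h).det else 0 := by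
  have h1 : wm w h * (wm w h).adjugate = (wm w h).det • 1 := Matrix.mul_adjugate _
  have h3 := congrFun (congrFun h1 i) k
  rw [Matrix.mul_apply, Matrix.smul_apply, Matrix.one_apply, smul_eq_mul] at h3
  rw [nfc]
  simpa [wm_apply] using h3

/-- `D / g` is regular at `q` modulo the fields `w`. -/
def RegMod (w : Fin r → Derivation ℂ R R) (g : R) (D : Derivation ℂ R R) (q : R →ₐ[ℂ] ℂ) : Prop :=
  ∃ (c : R) (a : Fin r → R) (s : R), c ≠ 0 ∧ q s ≠ 0 ∧
    ∀ x, c * g ∣ s * (c * D x - g * ∑ i, a i * w i x)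

/-- Regularity modulo fields which are independent at the point is regularity of the normal
form. -/
theorem regMod_iff [IsDomain R] {w : Fin r → Derivation ℂ R R} {h : Fin r → R} {g : R}
    (hg : g ≠ 0) {D : Derivation ℂ R R} {q : R →ₐ[ℂ] ℂ} (hdet : q (wm w h).det ≠ 0) :
    RegMod w g D q ↔ ∃ s, q s ≠ 0 ∧ s ∈ cond (g * (wm w h).det) (nf w h D) := by
  have hd0 : (wm w h).det ≠ 0 := by
    intro h0
    rw [h0, map_zero] at hdet
    exact hdet rfl
  constructor
  · rintro ⟨c, a, s, hc, hs, H⟩
    choose y hy using H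
    refine ⟨s * (wm w h).det, by rw [map_mul]; exact mul_ne_zero hs hdet, fun x => ?_⟩
    refine ⟨(wm w h).det * y x - ∑ k, nfc w h y k * w k x, ?_⟩
    apply mul_left_cancel₀ hc
    have e1 : ∀ k, c * g * nfc w h y k = s * (c * nfc w h D k - g * (a k * (wm w h).det)) := by
      intro k
      have e2 : nfc w h (fun x => c * g * y x) k = c * g * nfc w h y k := by
        simp only [nfc, Finset.mul_sum, mul_assoc]
      have e3 : nfc w h (fun x => s * (c * D x - g * ∑ i, a i * w i x)) k =
          s * (c * nfc w h D k - g * ∑ i, a i * nfc w h (w i) k) := by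
        simp only [nfc, Finset.mul_sum, Finset.sum_mul, mul_sub, sub_mul,
          Finset.sum_sub_distrib]
        congr 1
        · exact Finset.sum_congr rfl fun l _ => by ring
        · rw [Finset.sum_comm]
          exact Finset.sum_congr rfl fun i _ => Finset.sum_congr rfl fun l _ => by ring
      rw [← e2, ← (funext hy : (fun x => s * (c * D x - g * ∑ i, a i * w i x)) = _), e3]
      simp only [nfc_self, mul_ite, mul_zero, Finset.sum_ite_eq', Finset.mem_univ, if_true]
    have e5 : ∑ k, c * g * nfc w h y k * w k x = c * g * ∑ k, nfc w h y k * w k x := by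
      rw [Finset.mul_sum]
      exact Finset.sum_congr rfl fun k _ => by ring
    have e6 : ∑ k, c * g * nfc w h y k * w k x =
        s * c * ∑ k, nfc w h D k * w k x - s * g * (wm w h).det * ∑ k, a k * w k x := by
      rw [Finset.mul_sum, Finset.mul_sum, ← Finset.sum_sub_distrib]
      refine Finset.sum_congr rfl fun k _ => ?_
      rw [e1 k]
      ring
    rw [e5] at e6
    rw [nf_apply]
    linear_combination (wm w h).det * (wm w h).det * hy x + (wm w h).det * e6
  · rintro ⟨s, hs, H⟩
    refine ⟨g * (wm w h).det, nfc w h D, s, mul_ne_zero hg hd0, hs, fun x => ?_⟩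
    obtain ⟨y, hy⟩ := H x
    refine ⟨y, ?_⟩
    rw [nf_apply] at hy
    linear_combination g * hy

end nf

section hom
variable {Λ R : Type} [AddCommGroup Λ] [DecidableEq Λ] [CommRing R] [Algebra ℂ R] {r : ℕ}
variable {𝒜 : Λ → Submodule ℂ R} [GradedAlgebra 𝒜]

/-- A determinant of homogeneous entries. -/
theorem det_mem {n : ℕ} {A : Matrix (Fin n) (Fin n) R} {a b : Fin n → Λ}
    (h : ∀ i j, A i j ∈ 𝒜 (b j - a i)) : A.det ∈ 𝒜 (∑ j, b j - ∑ i, a i) := by
  rw [Matrix.det_apply]
  refine Submodule.sum_mem _ fun σ _ => ?_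
  rw [Units.smul_def, ← Int.cast_smul_eq_zsmul ℂ]
  apply Submodule.smul_mem
  have h1 : ∏ i, A (σ i) i ∈ 𝒜 (∑ i, (b i - a (σ i))) :=
    SetLike.prod_mem_graded _ _ _ fun i _ => h _ _
  rwa [Finset.sum_sub_distrib, Equiv.sum_comp σ a] at h1

theorem adj_mem {n : ℕ} {A : Matrix (Fin n) (Fin n) R} {a b : Fin n → Λ}
    (h : ∀ i j, A i j ∈ 𝒜 (b j - a i)) (i j : Fin n) :
    A.adjugate i j ∈ 𝒜 (∑ j, b j - ∑ i, a i + a j - b i) := by
  rw [Matrix.adjugate_apply]
  have h1 := det_mem (𝒜 := 𝒜) (A := A.updateRow j (Pi.single i 1))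
    (a := Function.update a j (b i)) (b := b) (by
      intro k l
      by_cases hk : k = j
      · subst hk
        rw [Matrix.updateRow_self, Function.update_self]
        by_cases hl : l = i
        · subst hl
          rw [Pi.single_eq_same, sub_self]
          exact SetLike.one_mem_graded 𝒜
        · rw [Pi.single_eq_of_ne hl]
          exact Submodule.zero_mem _
      · rw [Matrix.updateRow_ne hk, Function.update_of_ne hk]
        exact h k l)
  have h2 : ∑ x, Function.update a j (b i) x = ∑ x, a x - a j + b i := by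
    rw [Finset.sum_update_of_mem (Finset.mem_univ j),
      ← Finset.sum_sdiff (Finset.subset_univ {j}) (f := a), Finset.sum_singleton]
    abel
  rw [h2] at h1
  have h3 : ∑ j, b j - ∑ i, a i + a j - b i = ∑ j, b j - (∑ x, a x - a j + b i) := by abel
  rw [h3]
  exact h1

/-- The normal form is homogeneous. -/
theorem nf_mem {w : Fin r → Derivation ℂ R R} {h : Fin r → R} {D : Derivation ℂ R R}
    {χ η : Fin r → Λ} {τ : Λ} (hw : ∀ i k, ∀ x ∈ 𝒜 k, w i x ∈ 𝒜 (k - χ i))
    (hh : ∀ i, h i ∈ 𝒜 (η i)) (hD : ∀ k, ∀ x ∈ 𝒜 k, D x ∈ 𝒜 (k + τ)) {k : Λ} {x : R}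
    (hx : x ∈ 𝒜 k) : nf w h D x ∈ 𝒜 (k + τ + (∑ j, η j - ∑ i, χ i)) := by
  have hA : ∀ i j, wm w h i j ∈ 𝒜 (η j - χ i) := fun i j => hw i _ _ (hh j)
  rw [nf_apply]
  refine Submodule.sub_mem _ ?_ (Submodule.sum_mem _ fun i _ => ?_)
  · have h1 := SetLike.mul_mem_graded (det_mem (𝒜 := 𝒜) hA) (hD k x hx)
    convert h1 using 2
    abel
  · have h2 : nfc w h D i ∈ 𝒜 (∑ j, η j - ∑ i, χ i + χ i + τ) := by
      refine Submodule.sum_mem _ fun l _ => ?_
      have h1 := SetLike.mul_mem_graded (hD _ _ (hh l)) (adj_mem (𝒜 := 𝒜) hA l i)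
      convert h1 using 2
      abel
    have h1 := SetLike.mul_mem_graded h2 (hw i k x hx)
    convert h1 using 2
    abel

end hom

end Vale.Agent.P280.H347
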