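import Vale.Agent.P280.H347.Nf

/-! P280, Plan N: the polar ideal of a rational derivation modulo fields. -/

open DirectSum Vale.Agent.P280.T Vale.Agent.P280.H127

namespace Vale.Agent.P280.H347

variable {R : Type} [CommRing R] [Algebra ℂ R] {r : ℕ}

/-- The polar ideal `{s : s D / g ∈ Der R + ∑ K w i}`. -/
def polar [IsDomain R] (w : Fin r → Derivation ℂ R R) (g : R) (D : Derivation ℂ R R) :
    Ideal R where
  carrier := {s | ∃ (c : R) (a : Fin r → R), c ≠ 0 ∧
    ∀ x, c * g ∣ s * c * D x - g * ∑ i, a i * w i x}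
  zero_mem' := ⟨1, 0, one_ne_zero, fun x => by simp⟩
  add_mem' := by
    rintro s s' ⟨c, a, hc, H⟩ ⟨c', a', hc', H'⟩
    refine ⟨c * c', fun i => a i * c' + a' i * c, mul_ne_zero hc hc', fun x => ?_⟩
    obtain ⟨y, hy⟩ := H x
    obtain ⟨y', hy'⟩ := H' x
    refine ⟨y + y', ?_⟩
    have h1 : ∑ i, (a i * c' + a' i * c) * w i x =
        c' * ∑ i, a i * w i x + c * ∑ i, a' i * w i x := by
      rw [Finset.mul_sum, Finset.mul_sum, ← Finset.sum_add_distrib]
      exact Finset.sum_congr rfl fun i _ => by ring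
    rw [h1]
    linear_combination c' * hy + c * hy'
  smul_mem' := by
    rintro t s ⟨c, a, hc, H⟩
    refine ⟨c, fun i => t * a i, hc, fun x => ?_⟩
    obtain ⟨y, hy⟩ := H x
    refine ⟨t * y, ?_⟩
    have h1 : ∑ i, t * a i * w i x = t * ∑ i, a i * w i x := by
      rw [Finset.mul_sum]
      exact Finset.sum_congr rfl fun i _ => by ring
    rw [h1, smul_eq_mul]
    linear_combination t * hy

theorem mem_polar [IsDomain R] {w : Fin r → Derivation ℂ R R} {g : R} {D : Derivation ℂ R R}
    {s : R} : s ∈ polar w g D ↔ ∃ (c : R) (a : Fin r → R), c ≠ 0 ∧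
      ∀ x, c * g ∣ s * c * D x - g * ∑ i, a i * w i x := Iff.rfl

/-- `D / g` is regular at `q` modulo `w` iff `q` is not a zero of the polar ideal. -/
theorem regMod_iff_polar [IsDomain R] {w : Fin r → Derivation ℂ R R} {g : R}
    {D : Derivation ℂ R R} {q : R →ₐ[ℂ] ℂ} :
    RegMod w g D q ↔ ∃ s ∈ polar w g D, q s ≠ 0 := by
  constructor
  · rintro ⟨c, a, s, hc, hs, H⟩
    refine ⟨s, ⟨c, fun i => s * a i, hc, fun x => ?_⟩, hs⟩
    obtain ⟨y, hy⟩ := H x
    refine ⟨y, ?_⟩
    have h1 : ∑ i, s * a i * w i x = s * ∑ i, a i * w i x := by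
      rw [Finset.mul_sum]
      exact Finset.sum_congr rfl fun i _ => by ring
    rw [h1]
    linear_combination hy
  · rintro ⟨s, ⟨c, a, hc, H⟩, hs⟩
    have hs0 : s ≠ 0 := by
      rintro rfl
      exact hs (map_zero q)
    refine ⟨s * c, a, s, mul_ne_zero hs0 hc, hs, fun x => ?_⟩
    obtain ⟨y, hy⟩ := H x
    refine ⟨y, ?_⟩
    linear_combination s * hy

/-- The polar ideal and the conductor of the normal form. -/
theorem cond_le_polar [IsDomain R] {w : Fin r → Derivation ℂ R R} {h : Fin r → R} {g : R}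
    (hg : g ≠ 0) {D : Derivation ℂ R R} (hdet : (wm w h).det ≠ 0) :
    cond (g * (wm w h).det) (nf w h D) ≤ polar w g D := by
  intro s hs
  refine ⟨g * (wm w h).det, fun i => s * nfc w h D i, mul_ne_zero hg hdet, fun x => ?_⟩
  obtain ⟨y, hy⟩ := hs x
  refine ⟨y, ?_⟩
  rw [nf_apply] at hy
  have h1 : ∑ i, s * nfc w h D i * w i x = s * ∑ i, nfc w h D i * w i x := by
    rw [Finset.mul_sum]
    exact Finset.sum_congr rfl fun i _ => by ring
  rw [h1]
  linear_combination g * hy

theorem mul_mem_cond [IsDomain R] {w : Fin r → Derivation ℂ R R} {h : Fin r → R} {g : R}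
    {D : Derivation ℂ R R} {s : R} (hs : s ∈ polar w g D) :
    (wm w h).det * s ∈ cond (g * (wm w h).det) (nf w h D) := by
  obtain ⟨c, a, hc, H⟩ := hs
  choose y hy using H
  intro x
  refine ⟨(wm w h).det * y x - ∑ k, nfc w h y k * w k x, ?_⟩
  apply mul_left_cancel₀ hc
  have e1 : ∀ k, c * g * nfc w h y k = s * c * nfc w h D k - g * (a k * (wm w h).det) := by
    intro k
    have e2 : nfc w h (fun x => c * g * y x) k = c * g * nfc w h y k := by
      simp only [nfc, Finset.mul_sum, mul_assoc]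
    have e3 : nfc w h (fun x => s * c * D x - g * ∑ i, a i * w i x) k =
        s * c * nfc w h D k - g * ∑ i, a i * nfc w h (w i) k := by
      simp only [nfc, Finset.mul_sum, Finset.sum_mul, sub_mul, Finset.sum_sub_distrib]
      congr 1
      · exact Finset.sum_congr rfl fun l _ => by ring
      · rw [Finset.sum_comm]
        exact Finset.sum_congr rfl fun i _ => Finset.sum_congr rfl fun l _ => by ring
    rw [← e2, ← (funext hy : (fun x => s * c * D x - g * ∑ i, a i * w i x) = _), e3]
    simp only [nfc_self, mul_ite, mul_zero, Finset.sum_ite_eq', Finset.mem_univ, if_true]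
  have e5 : ∑ k, c * g * nfc w h y k * w k x = c * g * ∑ k, nfc w h y k * w k x := by
    rw [Finset.mul_sum]
    exact Finset.sum_congr rfl fun k _ => by ring
  have e6 : ∑ k, c * g * nfc w h y k * w k x =
      s * c * ∑ k, nfc w h D k * w k x - g * (wm w h).det * ∑ k, a k * w k x := by
    rw [Finset.mul_sum, Finset.mul_sum, ← Finset.sum_sub_distrib]
    refine Finset.sum_congr rfl fun k _ => ?_
    rw [e1 k]
    ring
  rw [e5] at e6
  rw [nf_apply]
  linear_combination (wm w h).det * (wm w h).det * hy x + (wm w h).det * e6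

/-- A minimal prime of the polar ideal through a point where the fields are independent has height
at most one. -/
theorem height_polar [IsDomain R] [IsNoetherianRing R] [IsIntegrallyClosed R]
    {w : Fin r → Derivation ℂ R R} {h : Fin r → R} {g : R} (hg : g ≠ 0) {D : Derivation ℂ R R}
    {Q : Ideal R} (hQ : Q ∈ (polar w g D).minimalPrimes) (hdet : (wm w h).det ∉ Q) :
    Q.height ≤ 1 := by
  have hQp : Q.IsPrime := hQ.isPrime
  have hd0 : (wm w h).det ≠ 0 := fun h0 => hdet (h0 ▸ Q.zero_mem)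
  refine Vale.Agent.P280.H939.height_le_one_of_dvd (mul_ne_zero hg hd0) (nf w h D)
    (I := cond (g * (wm w h).det) (nf w h D)) (fun r => mem_cond) (P := Q) ?_
  refine ⟨⟨hQp, (cond_le_polar hg hd0).trans hQ.1.2⟩, ?_⟩
  rintro P ⟨hP, hP1⟩ hPQ
  refine hQ.2 ⟨hP, fun s hs => ?_⟩ hPQ
  exact (hP.mem_or_mem (hP1 (mul_mem_cond (h := h) hs))).resolve_left fun h1 => hdet (hPQ h1)

/-- `D / g` can be replaced by any other fraction of it. -/
theorem polar_congr [IsDomain R] {w : Fin r → Derivation ℂ R R} {g g' : R} (hg : g ≠ 0)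
    (hg' : g' ≠ 0) {D D' : Derivation ℂ R R} (h : ∀ x, g' * D x = g * D' x) :
    polar w g D = polar w g' D' := by
  have key : ∀ {g g' : R} {D D' : Derivation ℂ R R}, g ≠ 0 → g' ≠ 0 →
      (∀ x, g' * D x = g * D' x) → polar w g D ≤ polar w g' D' := by
    rintro g g' D D' hg hg' h s ⟨c, a, hc, H⟩
    refine ⟨c, a, hc, fun x => ?_⟩
    obtain ⟨y, hy⟩ := H x
    refine ⟨y, ?_⟩
    apply mul_left_cancel₀ hg
    linear_combination g' * hy - s * c * h x
  exact le_antisymm (key hg hg' h) (key hg' hg fun x => (h x).symm)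

end Vale.Agent.P280.H347
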