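import Vale.Agent.P280.T.Ext2
import Vale.Agent.P280.H127.Wts

/-! P280, Plan N: a homogeneous rational derivation without polar weights has no pole; the normal
form of a rational derivation modulo given fields. -/

open DirectSum Vale.Agent.P280.T Vale.Agent.P280.H127

namespace Vale.Agent.P280.H347

section pole
variable {Λ R : Type} [AddCommGroup Λ] [DecidableEq Λ] [CommRing R] [IsDomain R] [Algebra ℂ R]
  [IsNoetherianRing R]
variable {𝒜 : Λ → Submodule ℂ R} [GradedAlgebra 𝒜]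

/-- **Pole lemma.** `D / g` is a rational derivation of weight `lam`, with poles near the fixed
point `q` at most along `u i0 = 0`. If no parameter `u i` with `D (u i) ≠ 0` has weight
`lam - k • wt i0 + ∑ c j • wt j`, `k > 0`, `c j ≥ 0`, `c i0 = 0`, then `D / g` is regular at
`q`. -/
theorem pole {q : R →ₐ[ℂ] ℂ} (hF : Fix 𝒜 q) {n : ℕ} {u : Fin n → R} {wt : Fin n → Λ}
    (G : Gens 𝒜 q u wt) {i0 : Fin n} (hu0 : u i0 ≠ 0) {g : R} {γ lam : Λ} (hg : g ∈ 𝒜 γ)
    (hg0 : g ≠ 0) (D : Derivation ℂ R R) (hD : ∀ k, ∀ h ∈ 𝒜 k, D h ∈ 𝒜 (k + γ - lam))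
    (hz : ∃ (k : ℕ) (s : R), q s ≠ 0 ∧ s * u i0 ^ k ∈ cond g D)
    (hw : ∀ k : ℕ, 0 < k → ∀ i, D (u i) = 0 ∨ ∀ c : Fin n → ℕ, c i0 = 0 →
      k • wt i0 + (wt i - lam) ≠ ∑ j, c j • wt j) :
    ∃ s, q s ≠ 0 ∧ s ∈ cond g D := by
  classical
  obtain ⟨s1, hs1, hs1'⟩ := Nat.find_spec hz
  have hmin : ∀ j, j < Nat.find hz → ¬ ∃ s, q s ≠ 0 ∧ s * u i0 ^ j ∈ cond g D :=
    fun j hj => Nat.find_min hz hj
  generalize hk : Nat.find hz = k at hs1' hmin
  rcases Nat.eq_zero_or_pos k with rfl | hk0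
  · rw [pow_zero, mul_one] at hs1'
    exact ⟨s1, hs1, hs1'⟩
  exfalso
  obtain ⟨k', rfl⟩ := Nat.exists_eq_succ_of_ne_zero hk0.ne'
  -- a homogeneous denominator
  obtain ⟨s, hs0, hsq, hs⟩ : ∃ s ∈ 𝒜 0, q s ≠ 0 ∧ s * u i0 ^ (k' + 1) ∈ cond g D := by
    refine ⟨cp 𝒜 0 s1, cp_mem _ _ _, by rw [hF.q_cp]; exact hs1, ?_⟩
    have h1 : u i0 ^ (k' + 1) ∈ 𝒜 ((k' + 1) • wt i0) := SetLike.pow_mem_graded _ (G.hom i0)
    have h2 := cond_homogeneous (𝒜 := 𝒜) hg D.toLinearMap
      (fun i h hh => ⟨_, hD i h hh⟩) hs1' ((k' + 1) • wt i0)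
    have h3 := cp_mul_right 𝒜 h1 s1 ((k' + 1) • wt i0)
    rw [sub_self] at h3
    rw [← h3]
    exact h2
  -- the derivation `E = s u ^ k D / g`
  have hEex : ∀ h, ∃ e, s * u i0 ^ (k' + 1) * D h = g * e := fun h => hs h
  choose E0 hE0 using hEex
  let E : R →ₗ[ℂ] R :=
    { toFun := E0
      map_add' := by
        intro x y
        apply mul_left_cancel₀ hg0
        rw [← hE0, mul_add, ← hE0, ← hE0, map_add, mul_add]
      map_smul' := by
        intro c x
        apply mul_left_cancel₀ hg0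
        rw [← hE0, RingHom.id_apply, mul_smul_comm, ← hE0, D.map_smul, mul_smul_comm] }
  have hE : ∀ h, s * u i0 ^ (k' + 1) * D h = g * E h := hE0
  have hEmul : ∀ a b, E (a * b) = a * E b + b * E a := by
    intro x y
    apply mul_left_cancel₀ hg0
    rw [← hE, Derivation.leibniz]
    simp only [smul_eq_mul]
    linear_combination x * hE y + y * hE x
  have hEdeg : ∀ j, ∀ h ∈ 𝒜 j, E h ∈ 𝒜 ((k' + 1) • wt i0 + (j - lam)) := by
    intro j h hh
    apply div_mem hg hg0
    rw [← hE]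
    have h1 : u i0 ^ (k' + 1) ∈ 𝒜 ((k' + 1) • wt i0) := SetLike.pow_mem_graded _ (G.hom i0)
    have h2 := SetLike.mul_mem_graded (SetLike.mul_mem_graded hs0 h1) (hD j h hh)
    have h3 : 0 + (k' + 1) • wt i0 + (j + γ - lam) = γ + ((k' + 1) • wt i0 + (j - lam)) := by
      abel
    rw [h3] at h2
    exact h2
  have hEu : ∀ i, ∃ t, q t = 1 ∧ u i0 ∣ t * E (u i) := by
    intro i
    rcases hw (k' + 1) (Nat.succ_pos k') i with h0 | h0
    · refine ⟨1, map_one q, ?_⟩
      have h1 : g * E (u i) = 0 := by rw [← hE, h0, mul_zero]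
      rw [(mul_eq_zero.1 h1).resolve_left hg0, mul_zero]
      exact dvd_zero _
    · have h1 := hEdeg _ _ (G.hom i)
      have hne : (k' + 1) • wt i0 + (wt i - lam) ≠ 0 := by
        have h2 := h0 (fun _ => 0) rfl
        simpa using h2
      obtain ⟨t, ht, ht'⟩ := lemmaA hF G
        (C := {w | ∃ c : Fin n → ℕ, c i0 = 0 ∧
          (k' + 1) • wt i0 + (wt i - lam) = w + ∑ j, c j • wt j}) (J := {i0}) (by
        rintro w ⟨c, hc0, hc⟩ j hj
        have hj' : j ≠ i0 := hj
        have hsum : ∑ x, (c x + if x = j then 1 else 0) • wt x = ∑ x, c x • wt x + wt j := by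
          simp only [add_smul, Finset.sum_add_distrib]
          congr 1
          rw [Finset.sum_eq_single j]
          · simp
          · intro b _ hb
            simp [hb]
          · intro h
            exact absurd (Finset.mem_univ j) h
        refine ⟨⟨fun x => c x + if x = j then 1 else 0, by simp [hc0, hj'.symm], ?_⟩, ?_⟩
        · rw [hc, hsum]
          abel
        · intro h4
          refine h0 (fun x => c x + if x = j then 1 else 0) (by simp [hc0, hj'.symm]) ?_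
          rw [hc, hsum, sub_eq_zero.1 h4]
          abel) (w := (k' + 1) • wt i0 + (wt i - lam)) ⟨fun _ => 0, rfl, by simp⟩ h1
        (mem_mx.2 (hF _ hne _ h1))
      rw [Set.image_singleton] at ht'
      exact ⟨t, ht, Ideal.mem_span_singleton.1 ht'⟩
  choose t ht ht' using hEu
  obtain ⟨s', _, hs'1, hs'⟩ := G.gen
  obtain ⟨r, hr1, hr'⟩ := nakayama_step E hEmul hs'1 hs' G.zero (t := ∏ i, t i) (u0 := u i0)
    (by rw [map_prod]; exact Finset.prod_eq_one (fun i _ => ht i))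
    (by
      intro i
      rw [← Finset.mul_prod_erase Finset.univ t (Finset.mem_univ i), mul_comm (t i), mul_assoc]
      exact dvd_mul_of_dvd_right (ht' i) _)
  apply hmin k' (Nat.lt_succ_self k')
  refine ⟨r * s, by rw [map_mul, hr1, one_mul]; exact hsq, ?_⟩
  rw [mem_cond]
  intro h
  obtain ⟨y, hy⟩ := hr' h
  refine ⟨y, ?_⟩
  apply mul_left_cancel₀ hu0
  have h1 : u i0 * (r * s * u i0 ^ k' * D h) = r * (s * u i0 ^ (k' + 1) * D h) := by ring
  rw [h1, hE, mul_left_comm, hy]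
  ring

end pole

end Vale.Agent.P280.H347
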