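import Vale.Agent.P280.H347.Hom

/-! P280, Plan N: the local step at a zero of the polar ideal. -/

open DirectSum Vale.Agent.P280.T Vale.Agent.P280.H127

namespace Vale.Agent.P280.H347

section
variable {Λ R : Type} [AddCommGroup Λ] [DecidableEq Λ] [CommRing R] [IsDomain R] [Algebra ℂ R]
  [IsNoetherianRing R]
variable {𝒜 : Λ → Submodule ℂ R} [GradedAlgebra 𝒜] {r : ℕ}

/-- **Local step, first half.** Near a regular fixed point `q` where the fields `w` are
independent: if two parameters `u i0`, `u i1` lie in the radical of the polar ideal and `q` is a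
zero of the polar ideal, then `i0 = i1`. -/
theorem step_unique [IsIntegrallyClosed R] {q : R →ₐ[ℂ] ℂ} (hF : Fix 𝒜 q)
    (hr : IsRegularLocalRing (Localization.AtPrime (mx q)))
    {n : ℕ} {u : Fin n → R} {wt : Fin n → Λ} (G : Gens 𝒜 q u wt) (hn : (n : ℕ∞) ≤ (mx q).height)
    {w : Fin r → Derivation ℂ R R} {h : Fin r → R} (hdet : q (wm w h).det ≠ 0)
    {g : R} (hg0 : g ≠ 0) {D : Derivation ℂ R R} (hq : ∀ x ∈ polar w g D, q x = 0)
    {i0 i1 : Fin n} (h0 : u i0 ∈ (polar w g D).radical) (h1 : u i1 ∈ (polar w g D).radical) :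
    i0 = i1 := by
  by_contra hne
  obtain ⟨v, hv1, hv2, -, -⟩ := G.exists_dual hF hn
  have hle : polar w g D ≤ mx q := fun x hx => mem_mx.2 (hq x hx)
  obtain ⟨Q, hQ, hQm⟩ := Ideal.exists_minimalPrimes_le hle
  have hQp : Q.IsPrime := hQ.isPrime
  have hQh : Q.height ≤ 1 := height_polar (h := h) hg0 hQ fun hd => hdet (mem_mx.1 (hQm hd))
  have hrad : (polar w g D).radical ≤ Q := by
    rw [hQp.radical_le_iff]
    exact hQ.1.2
  obtain ⟨t, y, ht, hty⟩ := local_principal hr (mem_mx.2 (G.zero i0)) (hv1 i0)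
    (by rw [hv2 i0 i0, if_pos rfl]; exact one_ne_zero) hQp hQm hQh (hrad h0) (hrad h1)
  have e := congrArg (v i1) hty
  rw [tan_mul (hv1 i1) _ _ (G.zero i1), tan_mul (hv1 i1) _ _ (G.zero i0), hv2 i1 i1, hv2 i1 i0,
    if_pos rfl, if_neg (Ne.symm hne), mul_one, mul_zero] at e
  exact ht e

/-- **Local step, second half.** If `u i0` lies in the radical of the polar ideal and `q` is a zero
of the polar ideal then for some `k > 0` and some parameter `u i`, not among the `h j`,
`wt i - lam + k wt i0` is a sum of weights other than `wt i0`. -/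
theorem step_weight {q : R →ₐ[ℂ] ℂ} (hF : Fix 𝒜 q)
    {n : ℕ} {u : Fin n → R} {wt : Fin n → Λ} (G : Gens 𝒜 q u wt)
    {w : Fin r → Derivation ℂ R R} {χ : Fin r → Λ} (hw : ∀ i k, ∀ x ∈ 𝒜 k, w i x ∈ 𝒜 (k - χ i))
    {ι : Fin r → Fin n} (hdet : q (wm w (fun j => u (ι j))).det ≠ 0)
    {g : R} {γ lam : Λ} (hg : g ∈ 𝒜 γ) (hg0 : g ≠ 0) {D : Derivation ℂ R R}
    (hD : ∀ k, ∀ x ∈ 𝒜 k, D x ∈ 𝒜 (k + γ - lam)) (hq : ∀ x ∈ polar w g D, q x = 0)
    {i0 : Fin n} (hu0 : u i0 ≠ 0) (h0 : u i0 ∈ (polar w g D).radical) :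
    ∃ (k : ℕ) (i : Fin n) (c : Fin n → ℕ), 0 < k ∧ (∀ j, ι j ≠ i) ∧ c i0 = 0 ∧
      k • wt i0 + (wt i - lam) = ∑ j, c j • wt j := by
  by_contra hcon
  push Not at hcon
  set h : Fin r → R := fun j => u (ι j) with hh
  have hdet0 : (wm w h).det ≠ 0 := by
    intro h0
    rw [h0, map_zero] at hdet
    exact hdet rfl
  have hA : ∀ i j, wm w h i j ∈ 𝒜 (wt (ι j) - χ i) := fun i j => hw i _ _ (G.hom (ι j))
  obtain ⟨s, hs, hs'⟩ := pole hF G hu0 (g := g * (wm w h).det)
    (γ := γ + (∑ j, wt (ι j) - ∑ i, χ i)) (lam := lam)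
    (SetLike.mul_mem_graded hg (det_mem (𝒜 := 𝒜) hA)) (mul_ne_zero hg0 hdet0) (nf w h D) (by
      intro k x hx
      have h1 := nf_mem (𝒜 := 𝒜) (D := D) (τ := γ - lam) hw (fun j => G.hom (ι j)) (by
        intro k x hx
        rw [← add_sub_assoc]
        exact hD k x hx) hx
      convert h1 using 2
      abel) (by
      obtain ⟨k, hk⟩ := h0
      exact ⟨k, (wm w h).det, hdet, mul_mem_cond hk⟩) (by
      intro k hk i
      by_cases hi : ∃ j, ι j = i
      · obtain ⟨j, rfl⟩ := hi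
        exact Or.inl (nf_eq_zero w h D j)
      · right
        push Not at hi
        exact fun c hc => hcon k i c hk hi hc)
  exact hs (hq s (cond_le_polar hg0 hdet0 hs'))

end

section tor
variable {M : Type} [AddCommGroup M] [DecidableEq M]
variable {R : Type} [CommRing R] [Algebra ℂ R] {𝒜 : ℕ × M → Submodule ℂ R} [GradedAlgebra 𝒜]
variable {r : ℕ}

/-- **The local step.** `q` is a fixed point (not the vertex) which is a zero of the polar ideal of
`D / g` (weight `lam`) modulo the fields `w i` (weights `χ i`), independent at `q`; all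
semi-invariants of negative `c`-weight relative to `q` lie in the radical of the polar ideal. Then
at most one parameter at `q` has negative `c`-weight, and if it has weight `wt i0` then
`wt i - lam + k wt i0` is a sum of other weights at `q`, for some `k > 0` and some parameter
`u i` not among those used for the fields. -/
theorem local_step [IsDomain R] (hX : IsTorusManifold 𝒜) {q : R →ₐ[ℂ] ℂ} {ν : M} (hv : ¬ IsVertex 𝒜 q)
    (hfix : IsFixed 𝒜 q ν) {n : ℕ} {u : Fin n → R} {wt : Fin n → M}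
    (G : Gens (coarse 𝒜 (rl (AddMonoidHom.id M) ν)) q u wt) (hn : (n : ℕ∞) = (mx q).height)
    {w : Fin r → Derivation ℂ R R} {χ : Fin r → M}
    (hw : ∀ i (d : ℕ) (m : M), ∀ x ∈ 𝒜 (d, m), w i x ∈ 𝒜 (d, m - χ i))
    {ι : Fin r → Fin n} (hdet : q (wm w (fun j => u (ι j))).det ≠ 0)
    {g : R} {N : ℕ} {κ lam : M} (hg : g ∈ 𝒜 (N, κ)) (hg0 : g ≠ 0) {D : Derivation ℂ R R}
    (hD : ∀ (d : ℕ) (m : M), ∀ x ∈ 𝒜 (d, m), D x ∈ 𝒜 (d + N, m + κ - lam))
    (hq : ∀ x ∈ polar w g D, q x = 0) (P : M → Prop)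
    (hneg : ∀ (d : ℕ) (m : M), P (m - d • ν) → ∀ x ∈ 𝒜 (d, m), x ∈ (polar w g D).radical) :
    (∀ i0 i1, P (wt i0) → P (wt i1) → i0 = i1) ∧
    ∀ i0, P (wt i0) → ∃ (k : ℕ) (i : Fin n) (c : Fin n → ℕ), 0 < k ∧ (∀ j, ι j ≠ i) ∧ c i0 = 0 ∧
      k • wt i0 + (wt i - lam) = ∑ j, c j • wt j := by
  have := noeth hX
  have := hX.normal
  have hF : Fix (coarse 𝒜 (rl (AddMonoidHom.id M) ν)) q := fix_of_isFixed hfix
  have hr : IsRegularLocalRing (Localization.AtPrime (mx q)) := hX.smooth q hv (mx q) rfl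
  have hrad : ∀ i0, P (wt i0) → u i0 ∈ (polar w g D).radical := by
    intro i0 hi0
    refine coarse_induction (P := fun x => x ∈ (polar w g D).radical) (Ideal.zero_mem _)
      (fun a b ha hb => Ideal.add_mem _ ha hb) ?_ (G.hom i0)
    rintro ⟨d, m⟩ hi x hx
    refine hneg d m ?_ x hx
    have h1 : m - d • ν = wt i0 := hi
    rwa [h1]
  refine ⟨fun i0 i1 h0 h1 => step_unique hF hr G hn.le hdet hg0 hq (hrad i0 h0) (hrad i1 h1),
    fun i0 h0 => ?_⟩
  have hu0 : u i0 ≠ 0 := by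
    obtain ⟨v, -, hv2, -, -⟩ := G.exists_dual hF hn.le
    intro h
    have := hv2 i0 i0
    rw [h, map_zero] at this
    simp at this
  refine step_weight hF G (χ := χ) ?_ hdet (γ := κ - N • ν) (lam := lam) (mem_coarse hg rfl) hg0
    ?_ hq hu0 (hrad i0 h0)
  · intro i k x hx
    refine coarse_induction (P := fun x => w i x ∈
      coarse 𝒜 (rl (AddMonoidHom.id M) ν) (k - χ i)) ?_ ?_ ?_ hx
    · rw [map_zero]
      exact Submodule.zero_mem _
    · intro a b ha hb
      rw [map_add]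
      exact Submodule.add_mem _ ha hb
    · rintro ⟨d, m⟩ rfl y hy
      refine mem_coarse (hw i d m y hy) ?_
      rw [rl_apply, rl_apply, map_sub]
      simp only [AddMonoidHom.id_apply]
      abel
  · intro k x hx
    refine coarse_induction (P := fun x => D x ∈
      coarse 𝒜 (rl (AddMonoidHom.id M) ν) (k + (κ - N • ν) - lam)) ?_ ?_ ?_ hx
    · rw [map_zero]
      exact Submodule.zero_mem _
    · intro a b ha hb
      rw [map_add]
      exact Submodule.add_mem _ ha hb
    · rintro ⟨d, m⟩ rfl y hy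
      refine mem_coarse (hD d m y hy) ?_
      rw [rl_apply, rl_apply]
      simp only [AddMonoidHom.id_apply, add_smul]
      abel

end tor

end Vale.Agent.P280.H347
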